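import Vale.Agent.P049.TS.Rate3.Num12
import Vale.Agent.P049.TS.Asm.ParC
import Vale.Agent.P049.TS.Asm.ExpoEnv

/-!
Rate lemmas `A1`, `A2` (one-sided potentials of `T₁`) of the phase IIIa.
-/

set_option linter.unusedSectionVars false
set_option exponentiation.threshold 3000

namespace Vale.Agent.P049.TS.R3

open Matrix Finset Vale.Agent.P049.TS.Asm
open Vale.Agent.P049.TS.Rate (A1_rate A2_rate errT1 sqT1 a1e a2e a1e_ev a2e_ev env8 env8_bound)

variable {n d k : ℕ}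

theorem Nk_gt3 (hk : k < k3 n d) : (sR n : ℝ) ^ 680 < Nk n d k := by
  have h : 2 * k + sR n ^ 680 < n * d := by unfold k3 at hk; omega
  unfold Nk
  have : ((2 * k + sR n ^ 680 : ℕ) : ℝ) < ((n * d : ℕ) : ℝ) := by exact_mod_cast h
  push_cast at this
  linarith

theorem rg3 (h : 1 ≤ sR n) (hk2 : k2 n d ≤ k) (hk : k < k3 n d) :
    Rg (LL n) (XX n d k) 680 699 where
  lt := by norm_num
  lo := by
    have hσ : (0 : ℝ) < sR n := by exact_mod_cast h
    have h1 := Real.log_le_log (by positivity) (Nk_gt3 hk).le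
    rw [Real.log_pow] at h1
    push_cast at h1
    exact h1
  hi := by
    have hσ : (0 : ℝ) < sR n := by exact_mod_cast h
    have hN : 0 < Nk n d k := lt_of_le_of_lt (by positivity) (Nk_gt3 hk)
    have h1 := Real.log_le_log hN (Nk_le2 hk2)
    rw [Real.log_pow] at h1
    push_cast at h1
    exact h1

variable {ι : Type*} [Fintype ι] [DecidableEq ι]
variable {F : Finset ι} {Zp Zm Z : Matrix ι ι ℝ} {forb : ι → ι → Prop} {ε : ℝ}

theorem oneC (h : EnvC n d k F Zp Zm forb) (hs : Sgn Zp Zm ε Z) : OneC n d k ε F Z := by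
  rcases hs with ⟨rfl, rfl⟩ | ⟨rfl, rfl⟩
  · exact h.p
  · exact h.m

theorem ctlC (h : OneC n d k ε F Z) :
    D12.Ctl F Z (bC n d k) (tC n d k) (sC n d k) (vC n d k) (wC n d k) where
  symm := h.symm
  supp := h.supp
  row := h.row
  b0 := mo_nonneg _ _ _ _
  t0 := mul_nonneg (Real.sqrt_nonneg _) (mo_nonneg _ _ _ _)
  s0 := mo_nonneg _ _ _ _
  v0 := mo_nonneg _ _ _ _
  w0 := mo_nonneg _ _ _ _
  T4 := h.T4
  T2 := h.T2
  X0 := h.X0
  S := h.S
  V := h.V
  W := h.W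

theorem sgn_eps (hs : Sgn Zp Zm ε Z) : ε = 1 ∨ ε = -1 := by
  rcases hs with ⟨h, -⟩ | ⟨h, -⟩
  · exact Or.inl h
  · exact Or.inr h

theorem frob_eq (hZ : Z.IsSymm) : frob Z = (Z ^ 2).trace := by
  rw [D12.trace_sq_eq hZ, frob]

theorem card_compl_le3 (h : EnvC n d k F Zp Zm forb) (hσ : 1 ≤ sR n) :
    ((((F ×ˢ F) \ adm F forb Zp Zm).card : ℕ) : ℝ) ≤ eC n d k ^ 2 := by
  classical
  have hs1 : (1 : ℝ) ≤ sR n := by exact_mod_cast hσ
  have hN : 0 < Nk n d k := lt_of_le_of_lt (by positivity) (Nk_gt3 h.k_lt)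
  have h1 := card_compl_adm_le (F := F) (forb := forb) (Zp := Zp) (Zm := Zm)
    (Δ := (d : ℝ) * (d + 1)) (h.tp.card)
  have hp : frob Zp ≤ Nk n d k := by rw [frob_eq h.p.symm]; exact h.p.T2_le
  have hm : frob Zm ≤ Nk n d k := by rw [frob_eq h.m.symm]; exact h.m.T2_le
  have hN2 : (sR n : ℝ) ^ 208 ≤ Nk n d k :=
    (pow_le_pow_right₀ hs1 (by norm_num)).trans (Nk_gt3 h.k_lt).le
  have e1 : Sd F Zp ^ 2 ≤ (sR n : ℝ) ^ 208 := by
    calc Sd F Zp ^ 2 ≤ ((sR n : ℝ) ^ 104) ^ 2 := pow_le_pow_left₀ (Sd_nonneg _ _) h.p.Sr 2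
      _ = _ := by rw [← pow_mul]
  have e2 : Sd F Zm ^ 2 ≤ (sR n : ℝ) ^ 208 := by
    calc Sd F Zm ^ 2 ≤ ((sR n : ℝ) ^ 104) ^ 2 := pow_le_pow_left₀ (Sd_nonneg _ _) h.m.Sr 2
      _ = _ := by rw [← pow_mul]
  have e3 : eC n d k ^ 2 = ((d : ℝ) + 25) ^ 2 * Nk n d k := by
    unfold eC
    rw [mul_pow, mo_pow, Nk_eq_mo hN (LL n)]
    norm_num
  rw [e3]
  rw [h.card] at h1
  have hd : (0 : ℝ) ≤ d := Nat.cast_nonneg d
  nlinarith

theorem Nk_ge4 (hσ : 2000 ≤ sR n) (hk : k < k3 n d) : 4 ≤ Nk n d k := by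
  have hs1 : (2000 : ℝ) ≤ sR n := by exact_mod_cast hσ
  have h2 : (sR n : ℝ) ≤ (sR n : ℝ) ^ 680 := le_self_pow₀ (by linarith) (by norm_num)
  have := Nk_gt3 hk
  linarith

/-- **rate of `A1`** -/
theorem rate_A1 (d : ℕ) (_hd : 3 ≤ d) : ∃ C : ℝ, ∃ s0 : ℕ, ∀ (ι : Type*) [Fintype ι]
    [DecidableEq ι] (n k : ℕ) (F : Finset ι) (Zp Zm : Matrix ι ι ℝ) (forb : ι → ι → Prop),
    s0 ≤ sR n → EnvC n d k F Zp Zm forb → ∀ (ε : ℝ) (Z : Matrix ι ι ℝ), Sgn Zp Zm ε Z →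
    ∑ p ∈ adm F forb Zp Zm, (A1c n d (k + 1) ε (upd Z p.1 p.2) - A1c n d k ε Z) ≤
      C * rT n d k := by
  refine ⟨a1e.cs (env8 1 2 1 1 ((d : ℝ) + 25) 1 16 (5 * (d : ℝ) ^ 2 + 1)), 2000, ?_⟩
  intro ι _ _ n k F Zp Zm forb hσ h ε Z hs
  obtain ⟨Z', hP⟩ := hs.isPair
  have o := oneC h hs
  have c := ctlC o
  have hσ0 : (0 : ℝ) < sR n := by exact_mod_cast (by omega : 0 < sR n)
  have hN4 := Nk_ge4 hσ h.k_lt
  have R := rg3 (by omega) h.k_ge h.k_lt
  have hρ : rhoC n d k = 1 / (8 * (sR n : ℝ) ^ 315) * Nk n d k := by unfold rhoC; ring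
  have hρ' : rhoC n d (k + 1) = 1 / (8 * (sR n : ℝ) ^ 315) * (Nk n d k - 2) := by
    unfold rhoC; rw [Nk_succ]; ring
  have hρ0 : 0 < rhoC n d k := by rw [hρ]; exact mul_pos (by positivity) (by linarith)
  have hρ0' : 0 < rhoC n d (k + 1) := by rw [hρ']; exact mul_pos (by positivity) (by linarith)
  have hx : ε * Z.trace ≤ 0 := by have := o.T1_le; linarith
  have h1 := A1_rate (e := eC n d k) c hP (sgn_eps hs) h.card (by linarith)
    (mul_nonneg (by positivity) (mo_nonneg _ _ _ _))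
    (card_compl_le3 h (by omega)) hx (by positivity : (0 : ℝ) < 1 / (8 * (sR n : ℝ) ^ 315)) hρ hρ'
  refine h1.trans ?_
  have e1 : 4 * ((errT1 (bC n d k) (tC n d k) (sC n d k) (vC n d k) (eC n d k) +
        2 * |ε * Z.trace| * eC n d k ^ 2 / Nk n d k) / rhoC n d (k + 1)) +
      (2 * sqT1 (bC n d k) (sC n d k) (vC n d k) + 8 * (ε * Z.trace) ^ 2) / rhoC n d (k + 1) ^ 2
      = a1e.ev (env8 (bC n d k) (tC n d k) (sC n d k) (vC n d k) (eC n d k) (1 / Nk n d k)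
          (1 / rhoC n d (k + 1)) |ε * Z.trace|) := by
    rw [← a1e_ev, ← sq_abs (ε * Z.trace)]
    ring
  rw [e1]
  have hrT : rT n d k = Asm.Em (LL n) (XX n d k) 680 699 2716 2792 :=
    mo_eq_Em (by norm_num) (by norm_num) (by norm_num)
  rw [hrT]
  have hd0 : (0 : ℝ) ≤ d := Nat.cast_nonneg d
  obtain ⟨k1, k2, k3⟩ := env8_bound (L := LL n) (X := XX n d k) (xl := 680) (xh := 699)
    (b := bC n d k) (t := tC n d k) (s := sC n d k) (v := vC n d k) (e := eC n d k)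
    (g := 1 / Nk n d k) (r := 1 / rhoC n d (k + 1)) (x := |ε * Z.trace|)
    (κb := 1) (κt := 2) (κs := 1) (κv := 1) (κe := (d : ℝ) + 25) (κg := 1) (κr := 16)
    (κx := 5 * (d : ℝ) ^ 2 + 1)
    (yb := 1325) (yt := 1360) (ys := 208) (yv := 1402) (ye := 1360) (yg := -2720) (yr := -1460)
    (yx := 1536)
    (zb := 1306) (zt := 1398) (zs := 208) (zv := 1402) (ze := 1398) (zg := -2796) (zr := -1536)
    (zx := 1536)
    ⟨c.b0, by norm_num, by
      rw [one_mul]; exact (mo_eq_Em (by norm_num) (by norm_num) (by norm_num)).le⟩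
    ⟨c.t0, by norm_num, by
      unfold tC
      rw [mo_eq_Em (y1 := 1360) (y2 := 1398) (xl := 680) (xh := 699) (by norm_num) (by norm_num)
        (by norm_num)]
      exact mul_le_mul_of_nonneg_right sqrt_two_le (Em_pos _ _ _ _ _ _).le⟩
    ⟨c.s0, by norm_num, by
      rw [one_mul]; exact (mo_eq_Em (by norm_num) (by norm_num) (by norm_num)).le⟩
    ⟨c.v0, by norm_num, by
      rw [one_mul]; exact (mo_eq_Em (by norm_num) (by norm_num) (by norm_num)).le⟩
    ⟨mul_nonneg (by positivity) (mo_nonneg _ _ _ _), by positivity, by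
      unfold eC
      exact (congrArg _ (mo_eq_Em (by norm_num) (by norm_num) (by norm_num))).le⟩
    ⟨by positivity, by norm_num, by
      rw [one_mul, Nk_eq_mo (by linarith) (LL n), one_div, mo_inv]
      exact (mo_eq_Em (by norm_num) (by norm_num) (by norm_num)).le⟩
    ⟨by positivity, by norm_num, by
      have h5 : Asm.Em (LL n) (XX n d k) 680 699 (-1460) (-1536)
          = (sR n : ℝ) ^ 315 / Nk n d k := by
        rw [Nk_eq_mo (by linarith) (LL n), sR_pow (by omega) (XX n d k), mo_div]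
        exact (mo_eq_Em (by norm_num) (by norm_num) (by norm_num)).symm
      rw [h5, hρ', div_le_iff₀ (mul_pos (by positivity) (by linarith))]
      have hN0 : 0 < Nk n d k := by linarith
      have e6 : 16 * ((sR n : ℝ) ^ 315 / Nk n d k) *
          (1 / (8 * (sR n : ℝ) ^ 315) * (Nk n d k - 2)) = 2 * (Nk n d k - 2) / Nk n d k := by
        field_simp
        ring
      rw [e6, le_div_iff₀ hN0]
      linarith⟩
    ⟨abs_nonneg _, by positivity, by
      rw [abs_of_nonpos hx]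
      have h6 : Asm.Em (LL n) (XX n d k) 680 699 1536 1536 = (sR n : ℝ) ^ 384 := by
        rw [sR_pow (by omega) (XX n d k)]
        exact (mo_eq_Em (by norm_num) (by norm_num) (by norm_num)).symm
      rw [h6]
      have := o.T1_ge
      linarith⟩
  exact Ex.bound a1e R _ _ (by decide) (by decide) k1 k2 k3

/-- **rate of `A2`** -/
theorem rate_A2 (d : ℕ) (_hd : 3 ≤ d) : ∃ C : ℝ, ∃ s0 : ℕ, ∀ (ι : Type*) [Fintype ι]
    [DecidableEq ι] (n k : ℕ) (F : Finset ι) (Zp Zm : Matrix ι ι ℝ) (forb : ι → ι → Prop),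
    s0 ≤ sR n → EnvC n d k F Zp Zm forb → ∀ (ε : ℝ) (Z : Matrix ι ι ℝ), Sgn Zp Zm ε Z →
    ∑ p ∈ adm F forb Zp Zm, (A2c n d ε (upd Z p.1 p.2) - A2c n d ε Z) ≤ C * rT n d k := by
  refine ⟨a2e.cs (env8 1 2 1 1 ((d : ℝ) + 25) 1 1 1), 2000, ?_⟩
  intro ι _ _ n k F Zp Zm forb hσ h ε Z hs
  obtain ⟨Z', hP⟩ := hs.isPair
  have o := oneC h hs
  have c := ctlC o
  have hσ0 : (0 : ℝ) < sR n := by exact_mod_cast (by omega : 0 < sR n)
  have hN4 := Nk_ge4 hσ h.k_lt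
  have R := rg3 (by omega) h.k_ge h.k_lt
  have hρ : rhoC n d k = 1 / (8 * (sR n : ℝ) ^ 315) * Nk n d k := by unfold rhoC; ring
  have hρ0 : 0 < rhoC n d k := by rw [hρ]; exact mul_pos (by positivity) (by linarith)
  have hx : ε * Z.trace ≤ 0 := by have := o.T1_le; linarith
  have hK : (0 : ℝ) < (sR n : ℝ) ^ 384 := by positivity
  have h1 := A2_rate (e := eC n d k) (K := (sR n : ℝ) ^ 384)
    (a := 5 * (d : ℝ) ^ 2 * (sR n : ℝ) ^ 384) c hP (sgn_eps hs) h.card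
    (mul_nonneg (by positivity) (mo_nonneg _ _ _ _))
    (card_compl_le3 h (by omega)) hx hK o.T2_le (by have := o.T1_ge; linarith)
  have e0 : ((sR n : ℝ) ^ 384) ^ 2 = (sR n : ℝ) ^ 768 := by rw [← pow_mul]
  have h1' : ∑ p ∈ adm F forb Zp Zm, (A2c n d ε (upd Z p.1 p.2) - A2c n d ε Z) ≤
      2 * (errT1 (bC n d k) (tC n d k) (sC n d k) (vC n d k) (eC n d k) / (sR n : ℝ) ^ 384) +
        sqT1 (bC n d k) (sC n d k) (vC n d k) / ((sR n : ℝ) ^ 384) ^ 2 := by
    refine le_trans (le_of_eq ?_) h1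
    unfold A2c
    rw [e0]
  refine h1'.trans ?_
  have e1 : 2 * (errT1 (bC n d k) (tC n d k) (sC n d k) (vC n d k) (eC n d k) /
        (sR n : ℝ) ^ 384) + sqT1 (bC n d k) (sC n d k) (vC n d k) / ((sR n : ℝ) ^ 384) ^ 2
      = a2e.ev (env8 (bC n d k) (tC n d k) (sC n d k) (vC n d k) (eC n d k) 1
          (1 / (sR n : ℝ) ^ 384) 1) := by
    rw [← a2e_ev]
    ring
  rw [e1]
  have hrT : rT n d k = Asm.Em (LL n) (XX n d k) 680 699 2716 2792 :=
    mo_eq_Em (by norm_num) (by norm_num) (by norm_num)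
  rw [hrT]
  have hd0 : (0 : ℝ) ≤ d := Nat.cast_nonneg d
  obtain ⟨k1, k2, k3⟩ := env8_bound (L := LL n) (X := XX n d k) (xl := 680) (xh := 699)
    (b := bC n d k) (t := tC n d k) (s := sC n d k) (v := vC n d k) (e := eC n d k)
    (g := 1) (r := 1 / (sR n : ℝ) ^ 384) (x := 1)
    (κb := 1) (κt := 2) (κs := 1) (κv := 1) (κe := (d : ℝ) + 25) (κg := 1) (κr := 1)
    (κx := 1)
    (yb := 1325) (yt := 1360) (ys := 208) (yv := 1402) (ye := 1360) (yg := 0) (yr := -1536)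
    (yx := 0)
    (zb := 1306) (zt := 1398) (zs := 208) (zv := 1402) (ze := 1398) (zg := 0) (zr := -1536)
    (zx := 0)
    ⟨c.b0, by norm_num, by
      rw [one_mul]; exact (mo_eq_Em (by norm_num) (by norm_num) (by norm_num)).le⟩
    ⟨c.t0, by norm_num, by
      unfold tC
      rw [mo_eq_Em (y1 := 1360) (y2 := 1398) (xl := 680) (xh := 699) (by norm_num) (by norm_num)
        (by norm_num)]
      exact mul_le_mul_of_nonneg_right sqrt_two_le (Em_pos _ _ _ _ _ _).le⟩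
    ⟨c.s0, by norm_num, by
      rw [one_mul]; exact (mo_eq_Em (by norm_num) (by norm_num) (by norm_num)).le⟩
    ⟨c.v0, by norm_num, by
      rw [one_mul]; exact (mo_eq_Em (by norm_num) (by norm_num) (by norm_num)).le⟩
    ⟨mul_nonneg (by positivity) (mo_nonneg _ _ _ _), by positivity, by
      unfold eC
      exact (congrArg _ (mo_eq_Em (by norm_num) (by norm_num) (by norm_num))).le⟩
    ⟨by norm_num, by norm_num, by rw [Asm.Em_zero]; norm_num⟩
    ⟨by positivity, by norm_num, by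
      rw [one_mul, sR_pow (by omega) (XX n d k), one_div, mo_inv]
      exact (mo_eq_Em (by norm_num) (by norm_num) (by norm_num)).le⟩
    ⟨by norm_num, by norm_num, by rw [Asm.Em_zero]; norm_num⟩
  exact Ex.bound a2e R _ _ (by decide) (by decide) k1 k2 k3

end Vale.Agent.P049.TS.R3
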