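import Vale.Agent.P049.TS.Rate3.AFabs
import Vale.Agent.P049.TS.Rate3.RC12
import Vale.Agent.P049.TS.Asm.EnvC
import Vale.Agent.P049.TS.Shell.Sign2

/-!
Rate lemma `AF` (the potential of `T₂ - 1` against the curve `N²/(N+C)`) of the phase IIIa.
-/

set_option linter.unusedSectionVars false
set_option exponentiation.threshold 3000

namespace Vale.Agent.P049.TS.RAF

open Matrix Finset Vale.Agent.P049.TS.Asm

/-- the environment `b t s v w e q τ N g` -/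
def env10 {α : Type*} [Zero α] (b t s v w e q τ N g : α) : ℕ → α
  | 0 => b | 1 => t | 2 => s | 3 => v | 4 => w | 5 => e | 6 => q | 7 => τ | 8 => N | 9 => g
  | _ => 0

/-- the right-hand side of `AF_abs` -/
abbrev afe : Ex :=
  4 * (.v 6) * ((4 * (.v 5) * ((.v 0) ^ 3 + (.v 2) * (2 * (.v 0) * (.v 4) + 2 * (.v 2))
        + (.v 3) ^ 2) +
      18 * (((.v 1) + (.v 2) ^ 2) * ((.v 0) ^ 3 + 2 * ((.v 2) * (2 * (.v 0) * (.v 4)
        + 2 * (.v 2))) + (.v 3) ^ 2)) +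
      30 * ((.v 0) ^ 4 + 2 * ((.v 2) * (.v 3)) ^ 2)) + 2 * (.v 5) ^ 2 + 2
      + 4 * ((.v 7) * ((.v 1) ^ 2 + 1)))
    + 8 * (.v 9) + 100
    + 4 * (.v 6) ^ 2 * ((343 * (.v 0) ^ 6 + 350 * ((.v 2) * (2 * (.v 0) * (.v 4)
        + 2 * (.v 2))) ^ 2 + 175 * (.v 3) ^ 4 + 2800 * (.v 4) ^ 4
        + 5600 * ((.v 2) ^ 4 * (.v 3) ^ 4)) + 4 * (.v 8) ^ 2)

theorem afe_ev (b t s v w e q τ N g : ℝ) :
    4 * q * (Rate.eT2 b t s v w e + 2 * e ^ 2 + 2 + 4 * (τ * (t ^ 2 + 1)))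
        + 8 * g + 100 + 4 * q ^ 2 * (Rate.qT2 b s v w + 4 * N ^ 2)
      = afe.ev (env10 b t s v w e q τ N g) := by
  simp only [afe, Ex.ev_add, Ex.ev_mul, Ex.ev_pow, Ex.ev_ofNat, Ex.ev_v, env10,
    Rate.eT2, Rate.qT2]
  push_cast
  ring

/-- exponents (times 4) at `N = σ^680` -/
def yF1 : ℕ → ℤ := env10 1325 1360 208 1402 1400 1360 (-2680) 1536 2720 2700
/-- exponents (times 4) at `N = σ^699` -/
def yF2 : ℕ → ℤ := env10 1306 1398 208 1402 1400 1398 (-2720) 1536 2796 2776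

theorem afe_1 : afe.y yF1 ≤ 2716 := by decide
theorem afe_2 : afe.y yF2 ≤ 2792 := by decide

theorem env10_bound {L X xl xh : ℝ} {b t s v w e q τ N g κb κt κs κv κw κe κq κτ κN κg : ℝ}
    {yb yt ys yv yw ye yq yτ yN yg zb zt zs zv zw ze zq zτ zN zg : ℤ}
    (hb : 0 ≤ b ∧ 0 ≤ κb ∧ b ≤ κb * Asm.Em L X xl xh yb zb)
    (ht : 0 ≤ t ∧ 0 ≤ κt ∧ t ≤ κt * Asm.Em L X xl xh yt zt)
    (hs : 0 ≤ s ∧ 0 ≤ κs ∧ s ≤ κs * Asm.Em L X xl xh ys zs)
    (hv : 0 ≤ v ∧ 0 ≤ κv ∧ v ≤ κv * Asm.Em L X xl xh yv zv)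
    (hw : 0 ≤ w ∧ 0 ≤ κw ∧ w ≤ κw * Asm.Em L X xl xh yw zw)
    (he : 0 ≤ e ∧ 0 ≤ κe ∧ e ≤ κe * Asm.Em L X xl xh ye ze)
    (hq : 0 ≤ q ∧ 0 ≤ κq ∧ q ≤ κq * Asm.Em L X xl xh yq zq)
    (hτ : 0 ≤ τ ∧ 0 ≤ κτ ∧ τ ≤ κτ * Asm.Em L X xl xh yτ zτ)
    (hN : 0 ≤ N ∧ 0 ≤ κN ∧ N ≤ κN * Asm.Em L X xl xh yN zN)
    (hg : 0 ≤ g ∧ 0 ≤ κg ∧ g ≤ κg * Asm.Em L X xl xh yg zg) :
    (∀ i, 0 ≤ env10 b t s v w e q τ N g i) ∧
    (∀ i, 0 ≤ env10 κb κt κs κv κw κe κq κτ κN κg i) ∧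
    ∀ i, env10 b t s v w e q τ N g i ≤ env10 κb κt κs κv κw κe κq κτ κN κg i *
      Asm.Em L X xl xh (env10 yb yt ys yv yw ye yq yτ yN yg i)
        (env10 zb zt zs zv zw ze zq zτ zN zg i) := by
  refine ⟨fun i => ?_, fun i => ?_, fun i => ?_⟩
  · match i with
    | 0 => exact hb.1
    | 1 => exact ht.1
    | 2 => exact hs.1
    | 3 => exact hv.1
    | 4 => exact hw.1
    | 5 => exact he.1
    | 6 => exact hq.1
    | 7 => exact hτ.1
    | 8 => exact hN.1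
    | 9 => exact hg.1
    | _ + 10 => exact le_rfl
  · match i with
    | 0 => exact hb.2.1
    | 1 => exact ht.2.1
    | 2 => exact hs.2.1
    | 3 => exact hv.2.1
    | 4 => exact hw.2.1
    | 5 => exact he.2.1
    | 6 => exact hq.2.1
    | 7 => exact hτ.2.1
    | 8 => exact hN.2.1
    | 9 => exact hg.2.1
    | _ + 10 => exact le_rfl
  · match i with
    | 0 => exact hb.2.2
    | 1 => exact ht.2.2
    | 2 => exact hs.2.2
    | 3 => exact hv.2.2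
    | 4 => exact hw.2.2
    | 5 => exact he.2.2
    | 6 => exact hq.2.2
    | 7 => exact hτ.2.2
    | 8 => exact hN.2.2
    | 9 => exact hg.2.2
    | _ + 10 => simp [env10]

variable {n d k : ℕ}

/-- `gC` of the phase table is `g(N)/σ^5` -/
theorem gC_eq (h : 2000 ≤ sR n) (d k : ℕ) :
    Asm.gC n d k = Rate.gC (CC n) (Nk n d k) / (sR n : ℝ) ^ 5 := by
  have hs0 : (0 : ℝ) < sR n := by exact_mod_cast (by omega : 0 < sR n)
  unfold Asm.gC Rate.gC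
  rw [div_div]
  congr 1
  ring

theorem tgC_eq (n d k : ℕ) : Asm.tgC n d k = Rate.phiC (CC n) (Nk n d k) := rfl

/-- **rate of `AF`** -/
theorem rate_AF (d : ℕ) (hd : 3 ≤ d) : ∃ C : ℝ, ∃ s0 : ℕ, ∀ (ι : Type) [Fintype ι]
    [DecidableEq ι] (n k : ℕ) (F : Finset ι) (Zp Zm : Matrix ι ι ℝ) (forb : ι → ι → Prop),
    s0 ≤ sR n → EnvC n d k F Zp Zm forb → ∀ (ε : ℝ) (Z : Matrix ι ι ℝ), Sgn Zp Zm ε Z →
    ∑ p ∈ adm F forb Zp Zm, (AFc n d (k + 1) (upd Z p.1 p.2) - AFc n d k Z) ≤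
      C * rT n d k := by
  refine ⟨afe.cs (env10 1 2 1 1 1 ((d : ℝ) + 25) 4 (5 * (d : ℝ) ^ 2 + 1) 1 1), 2000, ?_⟩
  intro ι _ _ n k F Zp Zm forb hσ h ε Z hs
  obtain ⟨Z', hP⟩ := hs.isPair
  have o := R3.oneC h hs
  have c := R3.ctlC o
  have hσ0 : (0 : ℝ) < sR n := by exact_mod_cast (by omega : 0 < sR n)
  have hs1 : (2000 : ℝ) ≤ sR n := by exact_mod_cast hσ
  have hNgt := R3.Nk_gt3 h.k_lt
  have hN22 : 22 ≤ Nk n d k := by
    have h2 : (sR n : ℝ) ≤ (sR n : ℝ) ^ 680 := le_self_pow₀ (by linarith) (by norm_num)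
    linarith
  have hN0 : 0 < Nk n d k := by linarith
  have hC0 := CC_pos hσ
  have hg0 := Asm.gC_pos hσ hN0
  have R := Asm.rg3 hσ h.k_ge h.k_lt
  have hr : (0 : ℝ) < (sR n : ℝ) ^ 5 := by positivity
  have hgp := Rate.gC_pos hC0 hN0
  -- the hypotheses
  have hρ0 := rhoC_pos hσ hN0
  have hT1 : ε * Z.trace ≤ 0 := by have := o.T1_le; linarith
  have hτ : |ε * Z.trace| ≤ (5 * (d : ℝ) ^ 2 + 1) * (sR n : ℝ) ^ 384 := by
    rw [abs_of_nonpos hT1]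
    have := o.T1_ge
    linarith
  have hT3 : -((Z ^ 2).trace + 1) ≤ ε * (Z ^ 3).trace := by
    have h1 := o.sg.trace_odd 0
    norm_num at h1
    have h2 := mu_le hd
    have h3 : 0 ≤ (√((d : ℝ) - 1))⁻¹ := by positivity
    have h4 := o.T2_ge
    have h5 : (√((d : ℝ) - 1))⁻¹ * (Z ^ 2).trace ≤ 1 * (Z ^ 2).trace :=
      mul_le_mul_of_nonneg_right (by linarith) (by linarith)
    have h6 : -1 ≤ ε := by
      rcases R3.sgn_eps hs with h | h <;> rw [h] <;> norm_num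
    linarith
  have hX : max ((Z ^ 2).trace - 1 - Rate.phiC (CC n) (Nk n d k)) 0 * (sR n : ℝ) ^ 5
      ≤ Rate.gC (CC n) (Nk n d k) := by
    have h1 := o.TF
    rw [tgC_eq, gC_eq hσ] at h1
    have h2 : max ((Z ^ 2).trace - 1 - Rate.phiC (CC n) (Nk n d k)) 0
        ≤ Rate.gC (CC n) (Nk n d k) / (sR n : ℝ) ^ 5 :=
      max_le (by linarith) (by positivity)
    rwa [le_div_iff₀ hr] at h2
  have main := Rate.AF_abs (e := eC n d k) c (adm_subset F forb Zp Zm)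
    (Rate.adm_pairOK (F := F) (forb := forb) hP)
    (mul_nonneg (by positivity) (mo_nonneg _ _ _ _)) (R3.card_compl_le3 h (by omega))
    (R3.sgn_eps hs) h.card hN22 hC0 hr hT1 hτ hT3 hX
  have e0 : ∑ p ∈ adm F forb Zp Zm, (AFc n d (k + 1) (upd Z p.1 p.2) - AFc n d k Z)
      = ∑ p ∈ adm F forb Zp Zm,
        (max ((upd Z p.1 p.2 ^ 2).trace - 1 - Rate.phiC (CC n) (Nk n d k - 2)) 0 ^ 2
          * ((sR n : ℝ) ^ 5 / Rate.gC (CC n) (Nk n d k - 2)) ^ 2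
        - max ((Z ^ 2).trace - 1 - Rate.phiC (CC n) (Nk n d k)) 0 ^ 2
          * ((sR n : ℝ) ^ 5 / Rate.gC (CC n) (Nk n d k)) ^ 2) := by
    refine Finset.sum_congr rfl fun p _ => ?_
    unfold AFc
    rw [gC_eq hσ, gC_eq hσ, tgC_eq, tgC_eq, Nk_succ, div_eq_mul_inv _ ((_ : ℝ) ^ 2),
      div_eq_mul_inv _ ((_ : ℝ) ^ 2), ← inv_pow, ← inv_pow, inv_div, inv_div]
  rw [e0]
  refine main.trans ?_
  rw [afe_ev, rT_Em]
  have hd0 : (0 : ℝ) ≤ d := Nat.cast_nonneg d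
  obtain ⟨k1, k2, k3⟩ := env10_bound (L := LL n) (X := XX n d k) (xl := 680) (xh := 699)
    (b := bC n d k) (t := tC n d k) (s := sC n d k) (v := vC n d k) (w := wC n d k)
    (e := eC n d k) (q := (sR n : ℝ) ^ 5 / Rate.gC (CC n) (Nk n d k))
    (τ := (5 * (d : ℝ) ^ 2 + 1) * (sR n : ℝ) ^ 384) (N := Nk n d k)
    (g := Rate.gC (CC n) (Nk n d k) / (sR n : ℝ) ^ 5)
    (κb := 1) (κt := 2) (κs := 1) (κv := 1) (κw := 1) (κe := (d : ℝ) + 25) (κq := 4)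
    (κτ := 5 * (d : ℝ) ^ 2 + 1) (κN := 1) (κg := 1)
    (yb := 1325) (yt := 1360) (ys := 208) (yv := 1402) (yw := 1400) (ye := 1360) (yq := -2680)
    (yτ := 1536) (yN := 2720) (yg := 2700)
    (zb := 1306) (zt := 1398) (zs := 208) (zv := 1402) (zw := 1400) (ze := 1398) (zq := -2720)
    (zτ := 1536) (zN := 2796) (zg := 2776)
    ⟨c.b0, by norm_num, by rw [one_mul]; exact bC_Em.le⟩
    ⟨c.t0, by norm_num, tC_Em⟩
    ⟨c.s0, by norm_num, by rw [one_mul]; exact sC_Em.le⟩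
    ⟨c.v0, by norm_num, by rw [one_mul]; exact vC_Em.le⟩
    ⟨c.w0, by norm_num, by rw [one_mul]; exact wC_Em.le⟩
    ⟨eC_nonneg _ _ _, by positivity, eC_Em.le⟩
    ⟨by positivity, by norm_num, by
      have h1 := gC_ge hσ h.k_ge h.k_lt
      rw [gC_eq hσ] at h1
      rw [div_le_iff₀ hgp]
      have e2 : Asm.Em (LL n) (XX n d k) 680 699 (-2680) (-2720)
          * Asm.Em (LL n) (XX n d k) 680 699 2680 2720 = 1 := by
        rw [Asm.Em_mul]; norm_num [Asm.Em_zero]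
      have h3 := (Asm.Em_pos (LL n) (XX n d k) 680 699 (-2680) (-2720)).le
      have h4 := mul_le_mul_of_nonneg_left h1 h3
      rw [e2] at h4
      have e5 : Asm.Em (LL n) (XX n d k) 680 699 (-2680) (-2720)
          * (4 * (Rate.gC (CC n) (Nk n d k) / (sR n : ℝ) ^ 5)) * (sR n : ℝ) ^ 5
          = 4 * Asm.Em (LL n) (XX n d k) 680 699 (-2680) (-2720) * Rate.gC (CC n) (Nk n d k) := by
        field_simp
      rw [← e5]
      calc (sR n : ℝ) ^ 5 = 1 * (sR n : ℝ) ^ 5 := (one_mul _).symm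
        _ ≤ _ := mul_le_mul_of_nonneg_right h4 hr.le⟩
    ⟨by positivity, by positivity, by
      have h6 : Asm.Em (LL n) (XX n d k) 680 699 1536 1536 = (sR n : ℝ) ^ 384 := by
        rw [sR_pow (by omega) (XX n d k)]
        exact (mo_eq_Em (by norm_num) (by norm_num) (by norm_num)).symm
      rw [h6]⟩
    ⟨hN0.le, by norm_num, by rw [one_mul]; exact (Nk_Em hN0).le⟩
    ⟨by positivity, by norm_num, by
      have h1 := Rate.gC_le hC0 hN0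
      have h6 : Nk n d k / (sR n : ℝ) ^ 5 = Asm.Em (LL n) (XX n d k) 680 699 2700 2776 := by
        rw [Nk_eq_mo hN0 (LL n), sR_pow (by omega) (XX n d k), mo_div]
        exact (mo_eq_Em (by norm_num) (by norm_num) (by norm_num))
      rw [one_mul, ← h6]
      exact div_le_div_of_nonneg_right h1 hr.le⟩
  exact Ex.bound afe R _ _ afe_1 afe_2 k1 k2 k3

end Vale.Agent.P049.TS.RAF
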