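import Vale.Agent.P049.TS.Rate3.Num12
import Vale.Agent.P049.TS.Asm.EnvB

/-!
Rate lemma `B1` (one-sided potential of `T₁`) of the phase IIIb.
-/

set_option linter.unusedSectionVars false
set_option exponentiation.threshold 3000

namespace Vale.Agent.P049.TS.R3B

open Matrix Finset Vale.Agent.P049.TS.Asm
open Vale.Agent.P049.TS.Rate (up_rate T1_mean_eps T1_sq_eps errT1 sqT1 a1e
  a1e_ev env8 env8_bound)

variable {ι : Type*} [Fintype ι] [DecidableEq ι]
variable {Zp Zm Z : Matrix ι ι ℝ} {ε : ℝ}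

theorem sgn_eps (hs : Sgn Zp Zm ε Z) : ε = 1 ∨ ε = -1 := by
  rcases hs with ⟨h, -⟩ | ⟨h, -⟩
  · exact Or.inl h
  · exact Or.inr h

/-- **rate of `B1`** -/
theorem rate_B1 (d : ℕ) (_hd : 3 ≤ d) : ∃ C : ℝ, ∃ s0 : ℕ, ∀ (ι : Type*) [Fintype ι]
    [DecidableEq ι] (n k : ℕ) (F : Finset ι) (Zp Zm : Matrix ι ι ℝ) (forb : ι → ι → Prop),
    s0 ≤ sR n → EnvB n d k F Zp Zm forb → ∀ (ε : ℝ) (Z : Matrix ι ι ℝ), Sgn Zp Zm ε Z →
    ∑ p ∈ adm F forb Zp Zm, (g1B n d (k + 1) ε (upd Z p.1 p.2) - g1B n d k ε Z) ≤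
      C * rT n d k := by
  refine ⟨a1e.cs (env8 2 2 1 2 ((d : ℝ) + 25) 1 64 1), 2000, ?_⟩
  intro ι _ _ n k F Zp Zm forb hσ h ε Z hs
  obtain ⟨Z', hP⟩ := hs.isPair
  have o := h.oneB hs
  have c := o.ctl
  have hσ0 : (0 : ℝ) < sR n := by exact_mod_cast (by omega : 0 < sR n)
  have hN4 := four_le_NkB hσ h.k_lt
  have R := rgB hσ h.k_ge h.k_lt
  have hcc : (0 : ℝ) < 1 / (32 * (sR n : ℝ) ^ 315) := by positivity
  have hρ : rhoB n d k = 1 / (32 * (sR n : ℝ) ^ 315) * Nk n d k := by unfold rhoB; ring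
  have hρ' : rhoB n d (k + 1) = 1 / (32 * (sR n : ℝ) ^ 315) * (Nk n d k - 2) := by
    unfold rhoB; rw [Nk_succ]; ring
  have hρ0 : 0 < rhoB n d k := by rw [hρ]; exact mul_pos hcc (by linarith)
  have hρ0' : 0 < rhoB n d (k + 1) := by rw [hρ']; exact mul_pos hcc (by linarith)
  have hx : ε * Z.trace ≤ 0 := by have := o.T1_neg; linarith
  have hT : 0 ≤ (Z ^ 2).trace := by have := o.T2_ge; linarith
  have he : 0 ≤ eB n d k := eB_nonneg _ _ _
  have hE := h.card_compl_le hσ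
  have h1 := up_rate (adm F forb Zp Zm)
    (fun p => ε * (upd Z p.1 p.2).trace - ε * Z.trace) hcc (by linarith : 2 < Nk n d k) hx hT
    (Rate.card_adm_le h.card) (Rate.card_adm_ge h.card hE) (sq_nonneg _)
    (T1_mean_eps c hP (sgn_eps hs) h.card he hE) (T1_sq_eps c hP (sgn_eps hs))
  rw [← hρ, ← hρ'] at h1
  have e0 : ∀ p : ι × ι, ε * Z.trace + (ε * (upd Z p.1 p.2).trace - ε * Z.trace) =
      ε * (upd Z p.1 p.2).trace := fun p => by ring
  simp only [e0] at h1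
  refine h1.trans ?_
  have e1 : 4 * ((errT1 (bB n d k) (tB n d k) (sB n d k) (vB n d k) (eB n d k) +
        2 * |ε * Z.trace| * eB n d k ^ 2 / Nk n d k) / rhoB n d (k + 1)) +
      (2 * sqT1 (bB n d k) (sB n d k) (vB n d k) + 8 * (ε * Z.trace) ^ 2) / rhoB n d (k + 1) ^ 2
      = a1e.ev (env8 (bB n d k) (tB n d k) (sB n d k) (vB n d k) (eB n d k) (1 / Nk n d k)
          (1 / rhoB n d (k + 1)) |ε * Z.trace|) := by
    rw [← a1e_ev, ← sq_abs (ε * Z.trace)]
    ring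
  rw [e1, rT_III]
  have hd0 : (0 : ℝ) ≤ d := Nat.cast_nonneg d
  obtain ⟨k1, k2, k3⟩ := env8_bound (L := LL n) (X := XX n d k) (xl := 530) (xh := 680)
    (b := bB n d k) (t := tB n d k) (s := sB n d k) (v := vB n d k) (e := eB n d k)
    (g := 1 / Nk n d k) (r := 1 / rhoB n d (k + 1)) (x := |ε * Z.trace|)
    (κb := 2) (κt := 2) (κs := 1) (κv := 2) (κe := (d : ℝ) + 25) (κg := 1) (κr := 64)
    (κx := 1)
    (yb := 727) (yt := 752) (ys := -88) (yv := 1060) (ye := 1060) (yg := -2120) (yr := -860)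
    (yx := 940)
    (zb := 1327) (zt := 1352) (zs := 212) (zv := 1384) (ze := 1360) (zg := -2720) (zr := -1460)
    (zx := 1540)
    ⟨c.b0, by norm_num, bB_III.le⟩
    ⟨c.t0, by norm_num, tB_III.le⟩
    ⟨c.s0, by norm_num, by rw [one_mul]; exact sB_III.le⟩
    ⟨c.v0, by norm_num, vB_III.le⟩
    ⟨he, by positivity, eB_III.le⟩
    ⟨by positivity, by norm_num, by
      rw [one_mul, Nk_eq_mo (by linarith) (LL n), one_div, mo_inv]
      exact (mo_eq_Em (by norm_num) (by norm_num) (by norm_num)).le⟩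
    ⟨by positivity, by norm_num, by
      have h5 : Asm.Em (LL n) (XX n d k) 530 680 (-860) (-1460)
          = (sR n : ℝ) ^ 315 / Nk n d k := by
        rw [Nk_eq_mo (by linarith) (LL n), sR_pow (by omega) (XX n d k), mo_div]
        exact (mo_eq_Em (by norm_num) (by norm_num) (by norm_num)).symm
      rw [h5, hρ', div_le_iff₀ (mul_pos (by positivity) (by linarith))]
      have hN0 : 0 < Nk n d k := by linarith
      have e6 : 64 * ((sR n : ℝ) ^ 315 / Nk n d k) *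
          (1 / (32 * (sR n : ℝ) ^ 315) * (Nk n d k - 2)) = 2 * (Nk n d k - 2) / Nk n d k := by
        field_simp
        ring
      rw [e6, le_div_iff₀ hN0]
      linarith⟩
    ⟨abs_nonneg _, by positivity, by
      have h6 : Asm.Em (LL n) (XX n d k) 530 680 940 1540 = Nk n d k / (sR n : ℝ) ^ 295 := by
        rw [sR_pow (by omega) (XX n d k), Nk_eq_mo (by linarith) (LL n), mo_div]
        exact (mo_eq_Em (by norm_num) (by norm_num) (by norm_num)).symm
      rw [h6, one_mul, abs_mul, hs.abs, one_mul]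
      exact o.T1_abs⟩
  exact Ex.bound a1e R _ _ (by decide) (by decide) k1 k2 k3

end Vale.Agent.P049.TS.R3B
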