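import Vale.Agent.P049.TS.S1.Drift
import Vale.Agent.P049.TS.Asm.EnvB
import Vale.Agent.P049.TS.Rate.T1

/-!
Rate lemma `g6B` (`S₁` in the phase IIIb).
-/

set_option linter.unusedSectionVars false
set_option exponentiation.threshold 3000

namespace Vale.Agent.P049.TS.R402

open Matrix Finset

variable {ι : Type*} [Fintype ι] [DecidableEq ι]

/-! ### exponent-free form -/

section Abs

variable {F : Finset ι} {Z : Matrix ι ι ℝ} {A : Finset (ι × ι)} {t s w r z e g ν N q τ c0 : ℝ}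

/-- the right-hand side -/
noncomputable def errB6 (t s w r z e g ν q τ : ℝ) : ℝ :=
  4 * (q * s ^ 2) + 4 * τ + 4 * (τ * (s * w)) + S1.errS1 t s w r z e g 0 ν

theorem B6_abs (hy : S1.Hyp F Z A (fun _ _ => 0) t s w r z e g 0 ν) (hN : (F.card : ℝ) = N)
    (hN4 : 4 ≤ N) (hq : Q4 F Z ≤ q) (hτ : |Z.trace| ≤ τ) (hc : 0 ≤ c0) :
    ∑ p ∈ A, (Sd ((F.erase p.1).erase p.2) (upd Z p.1 p.2) * c0 / (N - 2) - Sd F Z * c0 / N) ≤
      2 * c0 / N * errB6 t s w r z e g ν q τ := by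
  have h := S1.S1_mean hy
  simp only [sub_zero, one_mul, zero_mul, Finset.sum_const_zero, mul_zero] at h
  have hS0 := Sd_nonneg F Z
  have hS : Sd F Z ≤ s ^ 2 := hy.S
  have hQ0 := Q4_nonneg F Z
  have hq0 : 0 ≤ q := hQ0.trans hq
  have hτ0 : 0 ≤ τ := (abs_nonneg _).trans hτ
  have hsw : 0 ≤ s * w := mul_nonneg hy.s0 hy.w0
  have hNp : 0 < N := by linarith
  have hN2 : 0 < N - 2 := by linarith
  have hν : ν ^ 2 = N := by rw [← hy.N, hN]
  rw [hν] at h
  -- the quartic term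
  have h1 : 15 / 4 * (Q4 F Z * Sd F Z) ≤ 4 * (q * s ^ 2) := by
    have : Q4 F Z * Sd F Z ≤ q * s ^ 2 := mul_le_mul hq hS hS0 hq0
    have h0 : 0 ≤ q * s ^ 2 := by positivity
    linarith
  have h2 : 4 * Z.trace ≤ 4 * τ := by
    have := (le_abs_self Z.trace).trans hτ
    linarith
  have h3 : 4 * (Z.trace * ∑ c ∈ F, Z c c * (Z ^ 2) c c) ≤ 4 * (τ * (s * w)) := by
    have h4 := Q.sum_abs_diag_mul_le hy.S hy.s0 hy.W hy.w0
    have h5 : |∑ c ∈ F, Z c c * (Z ^ 2) c c| ≤ s * w := by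
      refine (Finset.abs_sum_le_sum_abs _ _).trans (le_trans (le_of_eq ?_) h4)
      refine Finset.sum_congr rfl fun c _ => ?_
      rw [abs_mul, abs_of_nonneg (Q.sq_diag_nonneg hy.base.symm c)]
    have h6 : Z.trace * ∑ c ∈ F, Z c c * (Z ^ 2) c c ≤ τ * (s * w) := by
      refine (le_abs_self _).trans ?_
      rw [abs_mul]
      exact mul_le_mul hτ h5 (abs_nonneg _) hτ0
    linarith
  have hE0 : 0 ≤ S1.errS1 t s w r z e g 0 ν := by
    have := hy.t0
    have := hy.s0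
    have := hy.w0
    have := hy.r0
    have := hy.z0
    have := hy.e0
    have := hy.g0
    have := hy.n0
    unfold S1.errS1
    positivity
  set R := errB6 t s w r z e g ν q τ with hR
  have hR0 : 0 ≤ R := by
    rw [hR]
    unfold errB6
    have : 0 ≤ q * s ^ 2 := by positivity
    have : 0 ≤ τ * (s * w) := by positivity
    linarith
  have hcard : (A.card : ℝ) ≤ N ^ 2 := by
    have h := Finset.card_le_card hy.sub
    rw [Finset.card_product] at h
    rw [← hN]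
    calc (A.card : ℝ) ≤ ((F.card * F.card : ℕ) : ℝ) := by exact_mod_cast h
      _ = _ := by push_cast; ring
  have e1 : ∑ p ∈ A, (Sd ((F.erase p.1).erase p.2) (upd Z p.1 p.2) * c0 / (N - 2) -
        Sd F Z * c0 / N) =
      c0 / (N - 2) * (∑ p ∈ A, (Sd ((F.erase p.1).erase p.2) (upd Z p.1 p.2) - Sd F Z) +
        Sd F Z * (2 / N) * A.card) := by
    have e2 : ∀ p : ι × ι, Sd ((F.erase p.1).erase p.2) (upd Z p.1 p.2) * c0 / (N - 2) -
        Sd F Z * c0 / N =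
        c0 / (N - 2) * (Sd ((F.erase p.1).erase p.2) (upd Z p.1 p.2) - Sd F Z) +
        c0 / (N - 2) * (Sd F Z * (2 / N)) := by
      intro p
      field_simp
      ring
    rw [Finset.sum_congr rfl fun p _ => e2 p, Finset.sum_add_distrib, Finset.sum_const,
      nsmul_eq_mul, ← Finset.mul_sum]
    ring
  rw [e1]
  have h4 : Sd F Z * (2 / N) * A.card ≤ 2 * N * Sd F Z := by
    have h5 : 2 / N * A.card ≤ 2 * N := by
      rw [div_mul_eq_mul_div, div_le_iff₀ hNp]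
      nlinarith
    rw [mul_assoc]
    calc Sd F Z * (2 / N * A.card) ≤ Sd F Z * (2 * N) := mul_le_mul_of_nonneg_left h5 hS0
      _ = _ := by ring
  have h6 : ∑ p ∈ A, (Sd ((F.erase p.1).erase p.2) (upd Z p.1 p.2) - Sd F Z) +
        Sd F Z * (2 / N) * A.card ≤ R := by
    rw [hR]
    unfold errB6
    linarith
  have h7 : c0 / (N - 2) ≤ 2 * c0 / N := by
    rw [div_le_div_iff₀ (by positivity) (by positivity)]
    nlinarith
  calc _ ≤ c0 / (N - 2) * R := mul_le_mul_of_nonneg_left h6 (by positivity)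
    _ ≤ _ := mul_le_mul_of_nonneg_right h7 hR0

end Abs

/-! ### exponents -/

section Num

open Vale.Agent.P049.TS.Asm

/-- `q`: the bound of `Q₄` (`m ≤ 1`), `i = 1/N` -/
def qE (t s w i : Ex) : Ex :=
  t ^ 2 + 2 * (s * w) + s ^ 2 * w + s ^ 4 + 2 * i * (3 * t ^ 2 + 2 * (s * w) + w ^ 2)

def errS1E (t s w r z e g ν : Ex) : Ex :=
  2 * g ^ 2 * s ^ 2 + 21 * (r + s ^ 2) * s ^ 2 * ν + 4 * e * s * w +
    4 * g * s ^ 2 * w + 24 * (r + s ^ 2) * s ^ 2 * w + 12 * (t + s ^ 2) * s * w +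
    42 * (r + s ^ 2) * s ^ 2 * z ^ 2 * w + 99 * w ^ 2

def B6E (t s w r z e g ν τ i c0 : Ex) : Ex :=
  2 * c0 * i * (4 * (qE t s w i * s ^ 2) + 4 * τ + 4 * (τ * (s * w)) + errS1E t s w r z e g ν)

/-- the environment -/
def envB6 {α : Type*} (y t s w r z e g ν τ i c0 : α) : ℕ → α
  | 0 => t | 1 => s | 2 => w | 3 => r | 4 => z | 5 => e | 6 => g | 7 => ν | 8 => τ | 9 => i
  | 10 => c0 | _ => y

abbrev xB6 : Ex :=
  B6E (.v 0) (.v 1) (.v 2) (.v 3) (.v 4) (.v 5) (.v 6) (.v 7) (.v 8) (.v 9) (.v 10)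

/-- the bound of `Q₄` -/
noncomputable def qB (t s w N : ℝ) : ℝ :=
  t ^ 2 + 2 * (s * w) + s ^ 2 * w + s ^ 4 + 2 * N⁻¹ * (3 * t ^ 2 + 2 * (s * w) + w ^ 2)

theorem B6_ev (t s w r z e g ν τ N c0 : ℝ) :
    2 * c0 / N * errB6 t s w r z e g ν (qB t s w N) τ =
      xB6.ev (envB6 0 t s w r z e g ν τ N⁻¹ c0) := by
  rw [div_eq_mul_inv]
  simp only [xB6, B6E, qE, errS1E, Ex.ev_add, Ex.ev_mul, Ex.ev_pow, Ex.ev_ofNat, Ex.ev_v, envB6,
    errB6, S1.errS1, qB]
  push_cast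
  ring

/-- exponents (times 4) at `N = σ^530` -/
def zlo6 : ℕ → ℤ := envB6 0 752 (-88) 782 391 0 1060 391 1060 940 (-2120) 2296
/-- exponents (times 4) at `N = σ^680` -/
def zhi6 : ℕ → ℤ := envB6 0 1352 212 1382 691 212 1360 691 1360 1540 (-2720) 2296

theorem xB6_lo : xB6.y zlo6 ≤ 2116 := by decide
theorem xB6_hi : xB6.y zhi6 ≤ 2716 := by decide

end Num

/-! ### the parameters in the phase IIIb -/

section Env

open Vale.Agent.P049.TS.Asm

variable {n d k : ℕ} {F : Finset ι} {Z Zp Zm : Matrix ι ι ℝ} {ε : ℝ} {forb : ι → ι → Prop}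

/-- `ν = √N` -/
noncomputable def nuB (n d k : ℕ) : ℝ := mo (LL n) (XX n d k) 0 (1 / 2)
/-- `r² = w` -/
noncomputable def rB (n d k : ℕ) : ℝ := mo (LL n) (XX n d k) (-(669 / 4)) (1 / 2)
/-- `g² ≥ 1 + Δ + 128 r² + 128 s⁴` -/
noncomputable def grB (n d k : ℕ) : ℝ := (d + 16) * (1 + rB n d k + sB n d k ^ 2)
/-- `τ = N / σ^295` -/
noncomputable def tauB (n d k : ℕ) : ℝ := mo (LL n) (XX n d k) (-295) 1

theorem nuB_nonneg (n d k : ℕ) : 0 ≤ nuB n d k := mo_nonneg _ _ _ _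
theorem rB_nonneg (n d k : ℕ) : 0 ≤ rB n d k := mo_nonneg _ _ _ _
theorem tauB_nonneg (n d k : ℕ) : 0 ≤ tauB n d k := mo_nonneg _ _ _ _

theorem grB_nonneg (n d k : ℕ) : 0 ≤ grB n d k := by
  have := rB_nonneg n d k
  unfold grB; positivity

theorem nuB_sq (hN : 0 < Nk n d k) : nuB n d k ^ 2 = Nk n d k := by
  unfold nuB
  rw [mo_pow, Nk_eq_mo hN (LL n)]
  norm_num

theorem rB_sq (n d k : ℕ) : rB n d k ^ 2 = wB n d k := by
  unfold rB wB
  rw [mo_pow]
  norm_num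

theorem tauB_eq (h : 1 ≤ sR n) (hN : 0 < Nk n d k) :
    tauB n d k = Nk n d k / (sR n : ℝ) ^ 295 := by
  have := mo_pow_div (a := 295) (b := 1) h hN
  rw [pow_one] at this
  rw [← this]
  unfold tauB
  norm_num

theorem grB_sq_ge (n d k : ℕ) :
    1 + (d : ℝ) * (d + 1) + 128 * wB n d k + 128 * sB n d k ^ 4 ≤ grB n d k ^ 2 := by
  have h1 := rB_nonneg n d k
  have h2 := sq_nonneg (sB n d k)
  have h3 : (1 + rB n d k + sB n d k ^ 2) ^ 2 ≥ 1 + wB n d k + sB n d k ^ 4 := by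
    rw [← rB_sq]
    nlinarith [mul_nonneg h1 h2]
  have h4 : (0 : ℝ) ≤ d := Nat.cast_nonneg d
  have h5 := wB_nonneg n d k
  have h6 : 0 ≤ sB n d k ^ 4 := by positivity
  unfold grB
  rw [mul_pow]
  have h7 : ((d : ℝ) + 16) ^ 2 * (1 + wB n d k + sB n d k ^ 4) ≤
      ((d : ℝ) + 16) ^ 2 * (1 + rB n d k + sB n d k ^ 2) ^ 2 :=
    mul_le_mul_of_nonneg_left h3 (sq_nonneg _)
  refine le_trans ?_ h7
  have h8 : (128 : ℝ) ≤ ((d : ℝ) + 16) ^ 2 := by nlinarith
  have h9 := mul_le_mul_of_nonneg_right h8 h5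
  have h10 := mul_le_mul_of_nonneg_right h8 h6
  nlinarith

theorem _root_.Vale.Agent.P049.TS.Asm.OneB.bds (h : OneB n d k ε F Z) (hN : 0 < Nk n d k)
    (hc : (F.card : ℝ) = Nk n d k) :
    Bds F Z (tB n d k) (sB n d k) (wB n d k) (nuB n d k) (bB n d k) where
  t0 := tB_nonneg _ _ _
  σ0 := sB_nonneg _ _ _
  v0 := wB_nonneg _ _ _
  ν0 := nuB_nonneg _ _ _
  b0 := bB_nonneg _ _ _
  T := h.T2
  S := by
    rw [← Finset.sum_subset (Finset.subset_univ F) (fun a _ ha => by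
      rw [h.supp a ha a]; norm_num)]
    exact h.S
  V := by
    have hz := Sg.zbase h.sg
    rw [← Finset.sum_subset (Finset.subset_univ F) (fun a _ ha => by
      have := hz.pow_supp 1 a a ha
      simp only [Nat.reduceAdd] at this
      rw [this]; norm_num)]
    exact h.W
  N := by rw [hc, nuB_sq hN]
  op := h.opB

theorem card16 (hσ : 2000 ≤ sR n) (hk : k < k4 n d) (hc : (F.card : ℝ) = Nk n d k) :
    16 ≤ F.card := by
  have h1 : (2000 : ℝ) ≤ sR n := by exact_mod_cast hσ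
  have h2 : (sR n : ℝ) ≤ (sR n : ℝ) ^ 530 := le_self_pow₀ (by linarith) (by norm_num)
  have h3 := Nk_gt4 hk
  have : (16 : ℝ) ≤ F.card := by rw [hc]; linarith
  exact_mod_cast this

/-- the hypotheses of `S1_mean` in the phase IIIb -/
theorem hypB (hσ : 2000 ≤ sR n) (E : EnvB n d k F Zp Zm forb) (hs : Sgn Zp Zm ε Z) :
    S1.Hyp F Z (adm F forb Zp Zm) (fun _ _ => 0) (tB n d k) (sB n d k) (wB n d k) (rB n d k)
      (1 + sB n d k) (eB n d k) (grB n d k) 0 (nuB n d k) := by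
  obtain ⟨Z', hP⟩ := hs.isPair
  have o := E.oneB hs
  have hN := NkB_pos E.k_lt
  obtain ⟨hm, hm1, hmd⟩ := mu_facts E.d3
  have hε : ε = 1 ∨ ε = -1 := by
    rcases hs with ⟨h, -⟩ | ⟨h, -⟩
    · exact Or.inl h
    · exact Or.inr h
  have hm34 : (√((d : ℝ) - 1))⁻¹ ≤ 3 / 4 := by
    have h3 : (3 : ℝ) ≤ d := by exact_mod_cast E.d3
    have h4 : (4 / 3 : ℝ) ≤ √((d : ℝ) - 1) := by
      rw [show (4 / 3 : ℝ) = √((4 / 3) ^ 2) by rw [Real.sqrt_sq (by norm_num)]]
      refine Real.sqrt_le_sqrt ?_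
      norm_num
      linarith
    calc (√((d : ℝ) - 1))⁻¹ ≤ (4 / 3 : ℝ)⁻¹ := inv_anti₀ (by norm_num) h4
      _ = 3 / 4 := by norm_num
  have bp := E.p.bds hN E.card
  have bm := E.m.bds hN E.card
  have hg : ∀ x : ℝ, x ≤ 1 + (d : ℝ) * (d + 1) + 128 * wB n d k + 128 * sB n d k ^ 4 →
      x ≤ grB n d k ^ 2 := fun x hx => hx.trans (grB_sq_ge n d k)
  have hdiag : ∀ i, |Z i i| ≤ sB n d k := by
    intro i
    by_cases hi : i ∈ F
    · exact Q.abs_diag_le_of o.S (sB_nonneg _ _ _) hi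
    · rw [o.supp i hi i, abs_zero]
      exact sB_nonneg _ _ _
  exact
    { base := Sg.zbase o.sg
      sub := adm_subset F forb Zp Zm
      ok := Rate.adm_pairOK hP
      t0 := tB_nonneg _ _ _
      s0 := sB_nonneg _ _ _
      w0 := wB_nonneg _ _ _
      r0 := rB_nonneg _ _ _
      z0 := by have := sB_nonneg n d k; linarith
      e0 := eB_nonneg _ _ _
      g0 := grB_nonneg _ _ _
      H0 := le_rfl
      n0 := nuB_nonneg _ _ _
      T := o.T2
      S := o.S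
      W := o.W
      R := fun a ha => by
        rw [rB_sq]
        exact Q.sq_diag_le_of_W o.W (wB_nonneg _ _ _) ha
      Zb := by
        intro a b
        have h1 := o.sg.hent hε hm hm34 (card16 hσ E.k_lt E.card) a b
        have h2 := hdiag a
        have h3 := hdiag b
        have h4 := sB_nonneg n d k
        refine abs_le_of_sq_le_sq (h1.trans ?_) (by linarith)
        rw [sq]
        exact mul_le_mul (by linarith) (by linarith) (by positivity) (by linarith)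
      N := by rw [nuB_sq hN]; exact E.card
      card := E.card_compl_le hσ
      rows := fun a ha => hg _ (rows_adm_le E.fo bp bm E.p.symm E.m.symm ha)
      cols := fun a ha => hg _ (cols_adm_le E.fo bp bm E.p.symm E.m.symm ha)
      hh := fun p _ => by norm_num
      hrow := fun a _ => by simp
      hcol := fun a _ => by simp }

/-- the bound of `Q₄` -/
theorem Q4_le_qB (hσ : 2000 ≤ sR n) (E : EnvB n d k F Zp Zm forb) (hs : Sgn Zp Zm ε Z) :
    Q4 F Z ≤ qB (tB n d k) (sB n d k) (wB n d k) (Nk n d k) := by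
  have o := E.oneB hs
  have hN := NkB_pos E.k_lt
  obtain ⟨hm, hm1, hmd⟩ := mu_facts E.d3
  have hε : ε = 1 ∨ ε = -1 := by
    rcases hs with ⟨h, -⟩ | ⟨h, -⟩
    · exact Or.inl h
    · exact Or.inr h
  have h1 := o.sg.Q4_le_W hε hm hm1 (sB_nonneg n d k) (wB_nonneg n d k) o.S o.W
  have hs0 := sB_nonneg n d k
  have hw0 := wB_nonneg n d k
  have hsw : 0 ≤ sB n d k * wB n d k := mul_nonneg hs0 hw0
  have hT := o.T2
  have hT0 : 0 ≤ (Z ^ 2).trace := by have := o.T2_ge; linarith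
  have a1 : (√((d : ℝ) - 1))⁻¹ ^ 2 * (Z ^ 2).trace ≤ tB n d k ^ 2 := by
    have : (√((d : ℝ) - 1))⁻¹ ^ 2 ≤ 1 := pow_le_one₀ hm.le hm1.le
    calc _ ≤ 1 * (Z ^ 2).trace := mul_le_mul_of_nonneg_right this hT0
      _ ≤ _ := by rw [one_mul]; exact hT
  have a2 : 2 * (√((d : ℝ) - 1))⁻¹ * (sB n d k * wB n d k) ≤ 2 * (sB n d k * wB n d k) := by
    nlinarith
  have a3 : 2 / (F.card : ℝ) * (3 * (Z ^ 2).trace + 2 * (sB n d k * wB n d k) + wB n d k ^ 2) ≤
      2 * (Nk n d k)⁻¹ * (3 * tB n d k ^ 2 + 2 * (sB n d k * wB n d k) + wB n d k ^ 2) := by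
    rw [E.card, div_eq_mul_inv]
    refine mul_le_mul_of_nonneg_left (by linarith) (by positivity)
  unfold qB
  linarith

end Env

open Vale.Agent.P049.TS.Asm in
/-- **rate of `g6B`** -/
theorem rate_B6 (d : ℕ) (_hd : 3 ≤ d) : ∃ C : ℝ, ∃ s0 : ℕ, ∀ (ι : Type*) [Fintype ι]
    [DecidableEq ι] (n k : ℕ) (F : Finset ι) (Zp Zm : Matrix ι ι ℝ) (forb : ι → ι → Prop),
    s0 ≤ sR n → EnvB n d k F Zp Zm forb → ∀ (ε : ℝ) (Z : Matrix ι ι ℝ), Sgn Zp Zm ε Z →
    ∑ p ∈ adm F forb Zp Zm, (g6B n d (k + 1) ((F.erase p.1).erase p.2) (upd Z p.1 p.2) -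
      g6B n d k F Z) ≤ C * rT n d k := by
  refine ⟨xB6.cs (fun _ => 3 * ((d : ℝ) + 25)), 2000, ?_⟩
  intro ι _ _ n k F Zp Zm forb hσ E ε Z hs
  have o := E.oneB hs
  have hN := NkB_pos E.k_lt
  have R := rgB hσ E.k_ge E.k_lt
  have h1 : 1 ≤ sR n := by omega
  have hmain := B6_abs (c0 := (sR n : ℝ) ^ 574) (hypB hσ E hs) E.card
    (four_le_NkB hσ E.k_lt) (Q4_le_qB hσ E hs)
    (τ := tauB n d k) (by rw [tauB_eq h1 hN]; exact o.T1_abs) (by positivity)
  have e4 : ∀ p : ι × ι, g6B n d (k + 1) ((F.erase p.1).erase p.2) (upd Z p.1 p.2) -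
      g6B n d k F Z =
      Sd ((F.erase p.1).erase p.2) (upd Z p.1 p.2) * (sR n : ℝ) ^ 574 / (Nk n d k - 2) -
        Sd F Z * (sR n : ℝ) ^ 574 / Nk n d k := fun p => by
    unfold g6B; rw [Nk_succ]
  rw [Finset.sum_congr rfl fun p _ => e4 p]
  refine hmain.trans ?_
  rw [B6_ev, rT_III]
  have hd0 : (0 : ℝ) ≤ d := Nat.cast_nonneg d
  have hK : (1 : ℝ) ≤ 3 * ((d : ℝ) + 25) := by linarith
  have key : ∀ {c x : ℝ} {y1 y2 : ℤ}, 0 ≤ c → c ≤ 3 * ((d : ℝ) + 25) →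
      x ≤ c * Asm.Em (LL n) (XX n d k) 530 680 y1 y2 →
      x ≤ 3 * ((d : ℝ) + 25) * Asm.Em (LL n) (XX n d k) 530 680 y1 y2 := by
    intro c x y1 y2 _ hc hx
    exact hx.trans (mul_le_mul_of_nonneg_right hc (Em_pos _ _ _ _ _ _).le)
  have one : ∀ {x : ℝ} {y1 y2 : ℤ}, x = Asm.Em (LL n) (XX n d k) 530 680 y1 y2 →
      x ≤ 3 * ((d : ℝ) + 25) * Asm.Em (LL n) (XX n d k) 530 680 y1 y2 := fun hx =>
    key (c := 1) zero_le_one hK (by rw [one_mul]; exact hx.le)
  have cs : sB n d k = _ := sB_III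
  have cr : rB n d k = Asm.Em (LL n) (XX n d k) 530 680 391 691 :=
    mo_eq_Em (by norm_num) (by norm_num) (by norm_num)
  have cν : nuB n d k = Asm.Em (LL n) (XX n d k) 530 680 1060 1360 :=
    mo_eq_Em (by norm_num) (by norm_num) (by norm_num)
  have cτ : tauB n d k = Asm.Em (LL n) (XX n d k) 530 680 940 1540 :=
    mo_eq_Em (by norm_num) (by norm_num) (by norm_num)
  have e0 : (1 : ℝ) = Asm.Em (LL n) (XX n d k) 530 680 0 0 := (Em_zero _ _ _ _).symm
  have m1 : (1 : ℝ) ≤ Asm.Em (LL n) (XX n d k) 530 680 0 212 := by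
    rw [e0]; exact Em_le R (by norm_num) (by norm_num)
  have m2 : sB n d k ≤ Asm.Em (LL n) (XX n d k) 530 680 0 212 := by
    rw [cs]; exact Em_le R (by norm_num) (by norm_num)
  have m3 : (1 : ℝ) ≤ Asm.Em (LL n) (XX n d k) 530 680 391 691 := by
    rw [e0]; exact Em_le R (by norm_num) (by norm_num)
  have m4 : sB n d k ^ 2 ≤ Asm.Em (LL n) (XX n d k) 530 680 391 691 := by
    rw [cs, Em_pow]; exact Em_le R (by norm_num) (by norm_num)
  have hi : (Nk n d k)⁻¹ = Asm.Em (LL n) (XX n d k) 530 680 (-2120) (-2720) := by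
    rw [Nk_III hN]
    refine inv_eq_of_mul_eq_one_right ?_
    rw [Em_mul]
    norm_num
    exact Em_zero _ _ _ _
  have hc0 : (sR n : ℝ) ^ 574 = Asm.Em (LL n) (XX n d k) 530 680 2296 2296 := by
    have := sR_pow_Em (n := n) hσ (X := XX n d k) (xl := 530) (xh := 680) (by norm_num) 574
    rw [this]
    norm_num
  refine Ex.bound xB6 R zlo6 zhi6 xB6_lo xB6_hi ?_ (fun _ => by positivity) ?_
  · intro i
    rcases i with _ | _ | _ | _ | _ | _ | _ | _ | _ | _ | _ | i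
    · exact tB_nonneg _ _ _
    · exact sB_nonneg _ _ _
    · exact wB_nonneg _ _ _
    · exact rB_nonneg _ _ _
    · show 0 ≤ 1 + sB n d k
      have := sB_nonneg n d k
      linarith
    · exact eB_nonneg _ _ _
    · exact grB_nonneg _ _ _
    · exact nuB_nonneg _ _ _
    · exact tauB_nonneg _ _ _
    · exact inv_nonneg.2 hN.le
    · show 0 ≤ (sR n : ℝ) ^ 574
      positivity
    · exact le_rfl
  · intro i
    rcases i with _ | _ | _ | _ | _ | _ | _ | _ | _ | _ | _ | i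
    · exact key (c := 2) (by norm_num) (by linarith) tB_III.le
    · exact one cs
    · exact one wB_III
    · exact one cr
    · exact key (c := 2) (by norm_num) (by linarith) (by
        show 1 + sB n d k ≤ 2 * Asm.Em (LL n) (XX n d k) 530 680 0 212
        linarith)
    · exact key (c := (d : ℝ) + 25) (by linarith) (by linarith) eB_III.le
    · refine key (c := ((d : ℝ) + 16) * 3) (by linarith) (by linarith) ?_
      show grB n d k ≤ ((d : ℝ) + 16) * 3 * Asm.Em (LL n) (XX n d k) 530 680 391 691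
      unfold grB
      rw [mul_assoc]
      refine mul_le_mul_of_nonneg_left ?_ (by linarith)
      linarith [cr.le]
    · exact one cν
    · exact one cτ
    · exact one hi
    · exact one hc0
    · show (0 : ℝ) ≤ _
      exact mul_nonneg (by linarith) (Em_pos _ _ _ _ _ _).le

end Vale.Agent.P049.TS.R402
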