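import Vale.Agent.P049.TS.Rate.T1

/-!
One-sided potentials of `T₁` (phase III), abstract part (real parameters, no exponents).
-/

set_option linter.unusedSectionVars false

namespace Vale.Agent.P049.TS.Rate

open Matrix Finset D12

/-- `(v₊)² ≤ (u₊)² + 2 u₊ (v - u) + (v - u)²` -/
theorem posq_step (u v : ℝ) :
    (max v 0) ^ 2 ≤ (max u 0) ^ 2 + 2 * max u 0 * (v - u) + (v - u) ^ 2 := by
  have e : (max u 0) ^ 2 + 2 * max u 0 * (v - u) + (v - u) ^ 2 = (max u 0 + (v - u)) ^ 2 := by ring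
  rw [e]
  rcases le_total v 0 with h | h
  · rw [max_eq_right h, zero_pow two_ne_zero]; exact sq_nonneg _
  · rw [max_eq_left h]
    have := le_max_left u 0
    exact pow_le_pow_left₀ h (by linarith) 2

theorem sum_posq_le {α : Type*} (A : Finset α) (V : α → ℝ) (u : ℝ) :
    ∑ p ∈ A, ((max (V p) 0) ^ 2 - (max u 0) ^ 2) ≤
      2 * max u 0 * ∑ p ∈ A, (V p - u) + ∑ p ∈ A, (V p - u) ^ 2 := by
  rw [Finset.mul_sum, ← Finset.sum_add_distrib]
  refine Finset.sum_le_sum fun p _ => ?_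
  have := posq_step u (V p)
  linarith

/-- **upper one-sided potential** `((x/ρ + 2)₊)²`, `ρ = cN`, for a quantity `x ≤ 0` whose drift is
`2 x (T - N)`, `T ≥ 0`: the potential is neutral. -/
theorem up_rate {α : Type*} (A : Finset α) (D : α → ℝ) {x T N E R Q c : ℝ} (hc : 0 < c)
    (hN : 2 < N) (hx : x ≤ 0) (hT : 0 ≤ T) (hA1 : (A.card : ℝ) ≤ N ^ 2)
    (hA2 : N ^ 2 - E ≤ A.card) (hE : 0 ≤ E)
    (hM : |∑ p ∈ A, D p - 2 * (x * (T - N))| ≤ R) (hQ : ∑ p ∈ A, D p ^ 2 ≤ Q) :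
    ∑ p ∈ A, ((max ((x + D p) / (c * (N - 2)) + 2) 0) ^ 2 - (max (x / (c * N) + 2) 0) ^ 2) ≤
      4 * ((R + 2 * |x| * E / N) / (c * (N - 2))) + (2 * Q + 8 * x ^ 2) / (c * (N - 2)) ^ 2 := by
  have hN0 : 0 < N := by linarith
  have hN2 : 0 < N - 2 := by linarith
  have hr : 0 < c * (N - 2) := mul_pos hc hN2
  have hR : 0 ≤ R := (abs_nonneg _).trans hM
  have h1 := sum_posq_le A (fun p => (x + D p) / (c * (N - 2)) + 2) (x / (c * N) + 2)
  refine h1.trans ?_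
  have hm0 : 0 ≤ max (x / (c * N) + 2) 0 := le_max_right _ _
  have hm2 : max (x / (c * N) + 2) 0 ≤ 2 := by
    apply max_le _ (by norm_num)
    have : x / (c * N) ≤ 0 := div_nonpos_of_nonpos_of_nonneg hx (by positivity)
    linarith
  have e1 : ∀ p ∈ A, ((x + D p) / (c * (N - 2)) + 2) - (x / (c * N) + 2) =
      (D p + 2 * x / N) / (c * (N - 2)) := by
    intro p _
    field_simp
    ring
  have s1 : ∑ p ∈ A, (((x + D p) / (c * (N - 2)) + 2) - (x / (c * N) + 2)) ≤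
      (R + 2 * |x| * E / N) / (c * (N - 2)) := by
    rw [Finset.sum_congr rfl e1, ← Finset.sum_div]
    apply div_le_div_of_nonneg_right _ hr.le
    rw [Finset.sum_add_distrib, Finset.sum_const, nsmul_eq_mul]
    have m := (abs_le.1 hM).2
    have e2 : (A.card : ℝ) * (2 * x / N) = 2 * x * ((A.card : ℝ) / N) := by ring
    have e3 : N - E / N ≤ (A.card : ℝ) / N := by
      rw [le_div_iff₀ hN0, sub_mul, div_mul_cancel₀ _ hN0.ne']
      linarith
    have e4 : 2 * x * ((A.card : ℝ) / N + (T - N)) ≤ 2 * |x| * E / N := by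
      rw [abs_of_nonpos hx]
      have h5 : -(E / N) ≤ (A.card : ℝ) / N + (T - N) := by linarith
      have h6 := mul_le_mul_of_nonpos_left h5 (by linarith : 2 * x ≤ 0)
      calc _ ≤ _ := h6
        _ = _ := by ring
    rw [e2]
    linarith
  have s2 : ∑ p ∈ A, (((x + D p) / (c * (N - 2)) + 2) - (x / (c * N) + 2)) ^ 2 ≤
      (2 * Q + 8 * x ^ 2) / (c * (N - 2)) ^ 2 := by
    have e5 : ∀ p ∈ A, (((x + D p) / (c * (N - 2)) + 2) - (x / (c * N) + 2)) ^ 2 =
        (D p + 2 * x / N) ^ 2 / (c * (N - 2)) ^ 2 := by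
      intro p hp
      rw [e1 p hp, div_pow]
    rw [Finset.sum_congr rfl e5, ← Finset.sum_div]
    apply div_le_div_of_nonneg_right _ (sq_nonneg _)
    have h7 : ∑ p ∈ A, (D p + 2 * x / N) ^ 2 ≤ ∑ p ∈ A, (2 * D p ^ 2 + 2 * (2 * x / N) ^ 2) :=
      Finset.sum_le_sum fun p _ => by nlinarith [sq_nonneg (D p - 2 * x / N)]
    refine h7.trans ?_
    rw [Finset.sum_add_distrib, ← Finset.mul_sum, Finset.sum_const, nsmul_eq_mul]
    have h8 : (A.card : ℝ) * (2 * (2 * x / N) ^ 2) ≤ N ^ 2 * (2 * (2 * x / N) ^ 2) :=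
      mul_le_mul_of_nonneg_right hA1 (by positivity)
    have h9 : N ^ 2 * (2 * (2 * x / N) ^ 2) = 8 * x ^ 2 := by
      field_simp
      ring
    linarith
  have hB : 0 ≤ (R + 2 * |x| * E / N) / (c * (N - 2)) := by positivity
  have h10 : 2 * max (x / (c * N) + 2) 0 *
      ∑ p ∈ A, (((x + D p) / (c * (N - 2)) + 2) - (x / (c * N) + 2)) ≤
      4 * ((R + 2 * |x| * E / N) / (c * (N - 2))) := by
    calc _ ≤ 2 * max (x / (c * N) + 2) 0 * ((R + 2 * |x| * E / N) / (c * (N - 2))) :=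
          mul_le_mul_of_nonneg_left s1 (by positivity)
      _ ≤ _ := mul_le_mul_of_nonneg_right (by linarith) hB
  linarith

/-- **lower one-sided potential** `((-x - 3K)₊)² / K²` for a quantity `x ≤ 0` whose drift is
`2 x (T - N)`, `T ≤ N`: the drift has the good sign. -/
theorem down_rate {α : Type*} (A : Finset α) (D : α → ℝ) {x T N R Q K a : ℝ} (hK : 0 < K)
    (hx : x ≤ 0) (hT : T ≤ N) (hm : -x - a ≤ K)
    (hM : |∑ p ∈ A, D p - 2 * (x * (T - N))| ≤ R) (hQ : ∑ p ∈ A, D p ^ 2 ≤ Q) :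
    ∑ p ∈ A, ((max (-(x + D p) - a) 0) ^ 2 / K ^ 2 - (max (-x - a) 0) ^ 2 / K ^ 2) ≤
      2 * (R / K) + Q / K ^ 2 := by
  have hR : 0 ≤ R := (abs_nonneg _).trans hM
  have h1 := sum_posq_le A (fun p => -(x + D p) - a) (-x - a)
  have e1 : ∀ p ∈ A, (-(x + D p) - a) - (-x - a) = - D p := fun p _ => by ring
  rw [Finset.sum_congr rfl e1,
    Finset.sum_congr rfl (fun p hp => by rw [e1 p hp, neg_sq] :
      ∀ p ∈ A, ((-(x + D p) - a) - (-x - a)) ^ 2 = D p ^ 2)] at h1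
  have hm0 : 0 ≤ max (-x - a) 0 := le_max_right _ _
  have hmK : max (-x - a) 0 ≤ K := max_le hm hK.le
  have s1 : ∑ p ∈ A, - D p ≤ R := by
    rw [Finset.sum_neg_distrib]
    have m := (abs_le.1 hM).1
    have h2 : 0 ≤ x * (T - N) := mul_nonneg_of_nonpos_of_nonpos hx (by linarith)
    linarith
  have h3 : 2 * max (-x - a) 0 * ∑ p ∈ A, - D p ≤ 2 * K * R := by
    calc _ ≤ 2 * max (-x - a) 0 * R := mul_le_mul_of_nonneg_left s1 (by positivity)
      _ ≤ _ := mul_le_mul_of_nonneg_right (by linarith) hR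
  have e2 : ∑ p ∈ A, ((max (-(x + D p) - a) 0) ^ 2 / K ^ 2 - (max (-x - a) 0) ^ 2 / K ^ 2) =
      (∑ p ∈ A, ((max (-(x + D p) - a) 0) ^ 2 - (max (-x - a) 0) ^ 2)) / K ^ 2 := by
    rw [Finset.sum_div]
    exact Finset.sum_congr rfl fun p _ => by rw [sub_div]
  rw [e2, div_le_iff₀ (by positivity)]
  have e3 : (2 * (R / K) + Q / K ^ 2) * K ^ 2 = 2 * K * R + Q := by
    field_simp
  rw [e3]
  linarith

variable {ι : Type*} [Fintype ι] [DecidableEq ι]
variable {F : Finset ι} {forb : ι → ι → Prop} {Zp Zm Z Z' : Matrix ι ι ℝ}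
  {b t s v w e eps : ℝ}

/-- the mean error of `T₁`, uniform weights -/
noncomputable def errT1 (b t s v e : ℝ) : ℝ :=
  2 * e * (b ^ 2 + s * v) + 6 * ((t + s ^ 2) * (b ^ 2 + 2 * (s * v)))

/-- the second moment of `T₁` -/
noncomputable def sqT1 (b s v : ℝ) : ℝ := 27 * b ^ 4 + 24 * (s * v) ^ 2

/-- mean of the increment of `eps T₁`, uniform weights -/
theorem T1_mean_eps (c : Ctl F Z b t s v w) (hP : Tilt.IsPair Zp Zm Z Z') {N : ℝ}
    (heps : eps = 1 ∨ eps = -1) (hN : (F.card : ℝ) = N) (he : 0 ≤ e)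
    (hE : (((F ×ˢ F) \ adm F forb Zp Zm).card : ℝ) ≤ e ^ 2) :
    |∑ p ∈ adm F forb Zp Zm, (eps * (upd Z p.1 p.2).trace - eps * Z.trace) -
      2 * ((eps * Z.trace) * ((Z ^ 2).trace - N))| ≤ errT1 b t s v e := by
  have hA := adm_subset F forb Zp Zm
  have hadm := adm_pairOK (F := F) (forb := forb) hP
  have m1 := T1_mean' (h := fun _ _ => 0) c hA hadm (fun p _ => by norm_num) he le_rfl hE
    (by simp)
  simp only [sub_zero, one_mul, zero_mul, Finset.sum_const_zero, mul_zero, add_zero] at m1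
  rw [hN] at m1
  have e1 : ∑ p ∈ adm F forb Zp Zm, (eps * (upd Z p.1 p.2).trace - eps * Z.trace) -
      2 * ((eps * Z.trace) * ((Z ^ 2).trace - N))
      = eps * (∑ p ∈ adm F forb Zp Zm, ((upd Z p.1 p.2).trace - Z.trace)
          - 2 * (Z.trace * ((Z ^ 2).trace - N))) := by
    have e0 : ∑ p ∈ adm F forb Zp Zm, (eps * (upd Z p.1 p.2).trace - eps * Z.trace)
        = eps * ∑ p ∈ adm F forb Zp Zm, ((upd Z p.1 p.2).trace - Z.trace) := by
      rw [Finset.mul_sum]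
      exact Finset.sum_congr rfl fun p _ => by ring
    rw [e0]
    ring
  rw [e1, eps_abs_mul heps]
  exact m1

theorem T1_sq_eps (c : Ctl F Z b t s v w) (hP : Tilt.IsPair Zp Zm Z Z')
    (heps : eps = 1 ∨ eps = -1) :
    ∑ p ∈ adm F forb Zp Zm, (eps * (upd Z p.1 p.2).trace - eps * Z.trace) ^ 2 ≤
      sqT1 b s v := by
  have hA := adm_subset F forb Zp Zm
  have hadm := adm_pairOK (F := F) (forb := forb) hP
  have m2 := T1_sq' c hA hadm
  refine le_trans (le_of_eq (Finset.sum_congr rfl fun p _ => ?_)) m2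
  rw [← mul_sub, eps_sq heps]

theorem card_adm_le {N : ℝ} (hN : (F.card : ℝ) = N) :
    ((adm F forb Zp Zm).card : ℝ) ≤ N ^ 2 := by
  have hA := adm_subset F forb Zp Zm
  have := Finset.card_le_card hA
  rw [Finset.card_product] at this
  rw [← hN]
  calc ((adm F forb Zp Zm).card : ℝ) ≤ ((F.card * F.card : ℕ) : ℝ) := by exact_mod_cast this
    _ = _ := by push_cast; ring

theorem card_adm_ge {N : ℝ} (hN : (F.card : ℝ) = N)
    (hE : (((F ×ˢ F) \ adm F forb Zp Zm).card : ℝ) ≤ e ^ 2) :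
    N ^ 2 - e ^ 2 ≤ ((adm F forb Zp Zm).card : ℝ) := by
  have hA := adm_subset F forb Zp Zm
  have hc : ((F ×ˢ F).card : ℝ) =
      (((F ×ˢ F) \ adm F forb Zp Zm).card : ℝ) + ((adm F forb Zp Zm).card : ℝ) := by
    rw [← Nat.cast_add, Finset.card_sdiff_add_card_eq_card hA]
  rw [Finset.card_product] at hc
  push_cast at hc
  rw [hN] at hc
  nlinarith

theorem posq_div {x ρ : ℝ} (hρ : 0 < ρ) :
    (max (x + 2 * ρ) 0) ^ 2 / ρ ^ 2 = (max (x / ρ + 2) 0) ^ 2 := by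
  have e : max (x / ρ + 2) 0 = max (x + 2 * ρ) 0 / ρ := by
    rcases le_total (x + 2 * ρ) 0 with h | h
    · have h2 : x / ρ + 2 ≤ 0 := by
        have : x / ρ + 2 = (x + 2 * ρ) / ρ := by field_simp
        rw [this]
        exact div_nonpos_of_nonpos_of_nonneg h hρ.le
      rw [max_eq_right h, max_eq_right h2, zero_div]
    · have h2 : 0 ≤ x / ρ + 2 := by
        have : x / ρ + 2 = (x + 2 * ρ) / ρ := by field_simp
        rw [this]
        positivity
      rw [max_eq_left h, max_eq_left h2]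
      field_simp
  rw [e, div_pow]

/-- **rate of the upper one-sided potential of `T₁`** (`A1`, `B1`), abstract form;
`ρ = c N`, `ρ' = c (N - 2)`. -/
theorem A1_rate (c : Ctl F Z b t s v w) (hP : Tilt.IsPair Zp Zm Z Z') {N ρ ρ' cc : ℝ}
    (heps : eps = 1 ∨ eps = -1) (hN : (F.card : ℝ) = N) (hN2 : 2 < N) (he : 0 ≤ e)
    (hE : (((F ×ˢ F) \ adm F forb Zp Zm).card : ℝ) ≤ e ^ 2)
    (hx : eps * Z.trace ≤ 0) (hcc : 0 < cc) (hρ : ρ = cc * N) (hρ' : ρ' = cc * (N - 2)) :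
    ∑ p ∈ adm F forb Zp Zm, ((max (eps * (upd Z p.1 p.2).trace + 2 * ρ') 0) ^ 2 / ρ' ^ 2
        - (max (eps * Z.trace + 2 * ρ) 0) ^ 2 / ρ ^ 2) ≤
      4 * ((errT1 b t s v e + 2 * |eps * Z.trace| * e ^ 2 / N) / ρ') +
        (2 * sqT1 b s v + 8 * (eps * Z.trace) ^ 2) / ρ' ^ 2 := by
  have hT : 0 ≤ (Z ^ 2).trace := by
    rw [trace_sq_eq c.symm]
    exact Finset.sum_nonneg fun _ _ => Finset.sum_nonneg fun _ _ => sq_nonneg _
  have h := up_rate (adm F forb Zp Zm)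
    (fun p => eps * (upd Z p.1 p.2).trace - eps * Z.trace) hcc hN2 hx hT
    (card_adm_le hN) (card_adm_ge hN hE) (sq_nonneg e)
    (T1_mean_eps c hP heps hN he hE) (T1_sq_eps c hP heps)
  have hρ0 : 0 < ρ := by rw [hρ]; exact mul_pos hcc (by linarith)
  have hρ0' : 0 < ρ' := by rw [hρ']; exact mul_pos hcc (by linarith)
  simp only [posq_div hρ0, posq_div hρ0']
  rw [← hρ, ← hρ'] at h
  have e1 : ∀ p : ι × ι, eps * Z.trace + (eps * (upd Z p.1 p.2).trace - eps * Z.trace) =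
      eps * (upd Z p.1 p.2).trace := fun p => by ring
  simp only [e1] at h
  exact h

/-- **rate of the lower one-sided potential of `T₁`** (`A2`), abstract form -/
theorem A2_rate (c : Ctl F Z b t s v w) (hP : Tilt.IsPair Zp Zm Z Z') {N K a : ℝ}
    (heps : eps = 1 ∨ eps = -1) (hN : (F.card : ℝ) = N) (he : 0 ≤ e)
    (hE : (((F ×ˢ F) \ adm F forb Zp Zm).card : ℝ) ≤ e ^ 2)
    (hx : eps * Z.trace ≤ 0) (hK : 0 < K) (hT : (Z ^ 2).trace ≤ N)
    (hm : -(eps * Z.trace) - a ≤ K) :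
    ∑ p ∈ adm F forb Zp Zm, ((max (-(eps * (upd Z p.1 p.2).trace) - a) 0) ^ 2 / K ^ 2
        - (max (-(eps * Z.trace) - a) 0) ^ 2 / K ^ 2) ≤
      2 * (errT1 b t s v e / K) + sqT1 b s v / K ^ 2 := by
  have h := down_rate (adm F forb Zp Zm)
    (fun p => eps * (upd Z p.1 p.2).trace - eps * Z.trace) hK hx hT hm
    (T1_mean_eps c hP heps hN he hE) (T1_sq_eps c hP heps)
  have e1 : ∀ p : ι × ι, eps * Z.trace + (eps * (upd Z p.1 p.2).trace - eps * Z.trace) =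
      eps * (upd Z p.1 p.2).trace := fun p => by ring
  simp only [e1] at h
  exact h

end Vale.Agent.P049.TS.Rate
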