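import Vale.Agent.P049.TS.Rate3.OneSided
import Vale.Agent.P049.TS.Asm.Expo

/-!
Exponent checks for the rates `A1`, `A2`, `B1` (polynomial right-hand sides of `OneSided.lean`).
-/

set_option linter.unusedSectionVars false

namespace Vale.Agent.P049.TS.Rate

open Vale.Agent.P049.TS.Asm

section
variable (b t s v e g r x : Ex)

/-- `errT1` -/
def errT1E : Ex := 2 * e * (b ^ 2 + s * v) + 6 * ((t + s ^ 2) * (b ^ 2 + 2 * (s * v)))
/-- `sqT1` -/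
def sqT1E : Ex := 27 * b ^ 4 + 24 * (s * v) ^ 2
/-- right-hand side of `A1_rate`: `g = 1/N`, `r = 1/ρ'`, `x = |eps T₁|` -/
def a1E : Ex := 4 * ((errT1E b t s v e + 2 * x * e ^ 2 * g) * r) + (2 * sqT1E b s v + 8 * x ^ 2) * r ^ 2
/-- right-hand side of `A2_rate`: `r = 1/K` -/
def a2E : Ex := 2 * (errT1E b t s v e * r) + sqT1E b s v * r ^ 2
end

/-- the environment `b t s v e g r x` -/
def env8 {α : Type*} [Zero α] (b t s v e g r x : α) : ℕ → α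
  | 0 => b | 1 => t | 2 => s | 3 => v | 4 => e | 5 => g | 6 => r | 7 => x | _ => 0

abbrev a1e : Ex := a1E (.v 0) (.v 1) (.v 2) (.v 3) (.v 4) (.v 5) (.v 6) (.v 7)
abbrev a2e : Ex := a2E (.v 0) (.v 1) (.v 2) (.v 3) (.v 4) (.v 6)

theorem a1e_ev (b t s v e g r x : ℝ) :
    4 * ((errT1 b t s v e + 2 * x * e ^ 2 * g) * r) + (2 * sqT1 b s v + 8 * x ^ 2) * r ^ 2 =
      a1e.ev (env8 b t s v e g r x) := by
  simp only [a1e, a1E, errT1E, sqT1E, Ex.ev_add, Ex.ev_mul, Ex.ev_pow, Ex.ev_ofNat, Ex.ev_v, env8,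
    errT1, sqT1]
  push_cast
  ring

theorem a2e_ev (b t s v e g r x : ℝ) :
    2 * (errT1 b t s v e * r) + sqT1 b s v * r ^ 2 = a2e.ev (env8 b t s v e g r x) := by
  simp only [a2e, a2E, errT1E, sqT1E, Ex.ev_add, Ex.ev_mul, Ex.ev_pow, Ex.ev_ofNat, Ex.ev_v, env8,
    errT1, sqT1]
  push_cast
  ring

/-- exponents (times 4) of `b t s v e g r x` at `N = σ^680` in phase IIIa -/
def yC1 : ℕ → ℤ := env8 1324 1360 204 1402 1360 (-2720) (-1460) 1536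
/-- at `N = σ^699` -/
def yC2 : ℕ → ℤ := env8 1305 1398 204 1402 1398 (-2796) (-1536) 1536
/-- phase IIIb, `N = σ^530` -/
def yB1 : ℕ → ℤ := env8 727 752 (-84) 1060 1060 (-2120) (-860) 944
/-- phase IIIb, `N = σ^680` -/
def yB2 : ℕ → ℤ := env8 1327 1352 216 1386 1360 (-2720) (-1460) 1544

/-- the same for `A2`: `r = σ^(-384)` -/
def yC1' : ℕ → ℤ := env8 1324 1360 204 1402 1360 0 (-1536) 0
def yC2' : ℕ → ℤ := env8 1305 1398 204 1402 1398 0 (-1536) 0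

theorem a1C_1 : a1e.y yC1 ≤ 2716 := by decide
theorem a1C_2 : a1e.y yC2 ≤ 2792 := by decide
theorem a2C_1 : a2e.y yC1' ≤ 2716 := by decide
theorem a2C_2 : a2e.y yC2' ≤ 2792 := by decide
theorem a1B_1 : a1e.y yB1 ≤ 2116 := by decide
theorem a1B_2 : a1e.y yB2 ≤ 2716 := by decide

/-- from pointwise bounds of the eight parameters to a bound of the polynomial -/
theorem env8_bound {L X xl xh : ℝ} {b t s v e g r x κb κt κs κv κe κg κr κx : ℝ}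
    {yb yt ys yv ye yg yr yx zb zt zs zv ze zg zr zx : ℤ}
    (hb : 0 ≤ b ∧ 0 ≤ κb ∧ b ≤ κb * Asm.Em L X xl xh yb zb)
    (ht : 0 ≤ t ∧ 0 ≤ κt ∧ t ≤ κt * Asm.Em L X xl xh yt zt)
    (hs : 0 ≤ s ∧ 0 ≤ κs ∧ s ≤ κs * Asm.Em L X xl xh ys zs)
    (hv : 0 ≤ v ∧ 0 ≤ κv ∧ v ≤ κv * Asm.Em L X xl xh yv zv)
    (he : 0 ≤ e ∧ 0 ≤ κe ∧ e ≤ κe * Asm.Em L X xl xh ye ze)
    (hg : 0 ≤ g ∧ 0 ≤ κg ∧ g ≤ κg * Asm.Em L X xl xh yg zg)
    (hr : 0 ≤ r ∧ 0 ≤ κr ∧ r ≤ κr * Asm.Em L X xl xh yr zr)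
    (hx : 0 ≤ x ∧ 0 ≤ κx ∧ x ≤ κx * Asm.Em L X xl xh yx zx) :
    (∀ i, 0 ≤ env8 b t s v e g r x i) ∧ (∀ i, 0 ≤ env8 κb κt κs κv κe κg κr κx i) ∧
    ∀ i, env8 b t s v e g r x i ≤ env8 κb κt κs κv κe κg κr κx i *
      Asm.Em L X xl xh (env8 yb yt ys yv ye yg yr yx i) (env8 zb zt zs zv ze zg zr zx i) := by
  refine ⟨fun i => ?_, fun i => ?_, fun i => ?_⟩
  · match i with
    | 0 => exact hb.1
    | 1 => exact ht.1
    | 2 => exact hs.1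
    | 3 => exact hv.1
    | 4 => exact he.1
    | 5 => exact hg.1
    | 6 => exact hr.1
    | 7 => exact hx.1
    | _ + 8 => exact le_rfl
  · match i with
    | 0 => exact hb.2.1
    | 1 => exact ht.2.1
    | 2 => exact hs.2.1
    | 3 => exact hv.2.1
    | 4 => exact he.2.1
    | 5 => exact hg.2.1
    | 6 => exact hr.2.1
    | 7 => exact hx.2.1
    | _ + 8 => exact le_rfl
  · match i with
    | 0 => exact hb.2.2
    | 1 => exact ht.2.2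
    | 2 => exact hs.2.2
    | 3 => exact hv.2.2
    | 4 => exact he.2.2
    | 5 => exact hg.2.2
    | 6 => exact hr.2.2
    | 7 => exact hx.2.2
    | _ + 8 => simp [env8]

end Vale.Agent.P049.TS.Rate
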