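import Vale.Agent.P049.TS.Rate.T1

/-!
Phase IIIa, the potential of `T₂ - 1` against the curve `φ(N) = N²/(N+C)`, abstract form.

`AF = (max (T₂ - 1 - φ(N)) 0)² (r₀ / g(N))²`, `g(N) = N² C/(N+C)²`; uniform weights.
-/

set_option linter.unusedSectionVars false

namespace Vale.Agent.P049.TS.Rate

open Matrix Finset D12

/-- the curve `φ(N) = N²/(N+C)` -/
noncomputable def phiC (C N : ℝ) : ℝ := N ^ 2 / (N + C)

/-- the weight `g(N) = N² C/(N+C)²` -/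
noncomputable def gC (C N : ℝ) : ℝ := N ^ 2 * C / (N + C) ^ 2

variable {C N : ℝ}

theorem phiC_eq (hC : 0 < C) (hN : 0 < N) : phiC C N = N - C + C ^ 2 / (N + C) := by
  unfold phiC
  field_simp
  ring

theorem N_sub_phiC (hC : 0 < C) (hN : 0 < N) : N - phiC C N = N * C / (N + C) := by
  unfold phiC
  field_simp
  ring

theorem phiC_nonneg (hC : 0 < C) (hN : 0 < N) : 0 ≤ phiC C N := by
  unfold phiC; positivity

theorem phiC_le (hC : 0 < C) (hN : 0 < N) : phiC C N ≤ N := by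
  have h := N_sub_phiC hC hN
  have : 0 ≤ N * C / (N + C) := by positivity
  linarith

/-- `φ(N) - φ(N-2) ≤ 2` -/
theorem phiC_step_le_two (hC : 0 < C) (hN : 2 < N) : phiC C N - phiC C (N - 2) ≤ 2 := by
  have h0 : 0 < N := by linarith
  have h2 : 0 < N - 2 := by linarith
  rw [phiC_eq hC h0, phiC_eq hC h2]
  have : C ^ 2 / (N + C) ≤ C ^ 2 / (N - 2 + C) :=
    div_le_div_of_nonneg_left (sq_nonneg C) (by linarith) (by linarith)
  linarith

theorem phiC_step_nonneg (hC : 0 < C) (hN : 2 < N) : 0 ≤ phiC C N - phiC C (N - 2) := by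
  have h0 : 0 < N := by linarith
  have h2 : 0 < N - 2 := by linarith
  unfold phiC
  rw [sub_nonneg, div_le_div_iff₀ (by linarith) (by linarith)]
  nlinarith [mul_pos h0 h2, mul_pos hC h0, mul_pos hC h2]

/-- `(φ(N) - φ(N-2)) N² ≤ 4 φ N - 2 φ²` (convexity of `φ`) -/
theorem phiC_step (hC : 0 < C) (hN : 2 < N) :
    (phiC C N - phiC C (N - 2)) * N ^ 2 ≤ 4 * phiC C N * N - 2 * phiC C N ^ 2 := by
  have h0 : 0 < N := by linarith
  have h2 : 0 < N - 2 := by linarith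
  have h3 : 0 < N + C := by linarith
  have h4 : 0 < N - 2 + C := by linarith
  have e : 4 * phiC C N * N - 2 * phiC C N ^ 2 - (phiC C N - phiC C (N - 2)) * N ^ 2
      = 4 * C ^ 2 * N ^ 2 / ((N + C) ^ 2 * (N - 2 + C)) := by
    unfold phiC
    field_simp
    ring
  have : 0 ≤ 4 * C ^ 2 * N ^ 2 / ((N + C) ^ 2 * (N - 2 + C)) := by positivity
  linarith

theorem gC_pos (hC : 0 < C) (hN : 0 < N) : 0 < gC C N := by
  unfold gC; positivity

/-- `g(N) ≤ N` -/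
theorem gC_le (hC : 0 < C) (hN : 0 < N) : gC C N ≤ N := by
  unfold gC
  rw [div_le_iff₀ (by positivity)]
  nlinarith [mul_pos hC hN, mul_pos (mul_pos hN hN) hN, mul_pos (mul_pos hC hC) hN,
    mul_pos (mul_pos hC hN) hN]

/-- the step of the weight: `u = 2C/((N-2)(N+C))` -/
noncomputable def uC (C N : ℝ) : ℝ := 2 * C / ((N - 2) * (N + C))

theorem uC_nonneg (hC : 0 < C) (hN : 2 < N) : 0 ≤ uC C N := by
  unfold uC
  have h2 : 0 < N - 2 := by linarith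
  positivity

theorem uC_le (hC : 0 < C) (hN : 22 ≤ N) : uC C N ≤ 1 / 10 := by
  unfold uC
  have h2 : 0 < N - 2 := by linarith
  rw [div_le_div_iff₀ (by positivity) (by norm_num)]
  nlinarith [mul_pos hC h2]

theorem gC_step (hC : 0 < C) (hN : 2 < N) (r : ℝ) :
    (r / gC C (N - 2)) ^ 2 = (r / gC C N) ^ 2 * (1 + uC C N) ^ 4 := by
  have h0 : 0 < N := by linarith
  have h2 : 0 < N - 2 := by linarith
  have h3 : 0 < N + C := by linarith
  have h4 : 0 < N - 2 + C := by linarith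
  have h5 : N - 2 ≠ 0 := h2.ne'
  have e : 1 + uC C N = N * (N - 2 + C) / ((N - 2) * (N + C)) := by
    unfold uC
    field_simp
    ring
  rw [e]
  unfold gC
  field_simp

/-- `4 u N² = 8 (N - φ) N/(N-2)` -/
theorem uC_mul (hC : 0 < C) (hN : 2 < N) :
    4 * uC C N * N ^ 2 = 8 * (N - phiC C N) * (1 + 2 / (N - 2)) := by
  have h0 : 0 < N := by linarith
  have h2 : 0 < N - 2 := by linarith
  have h5 : N - 2 ≠ 0 := h2.ne'
  rw [N_sub_phiC hC h0]
  unfold uC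
  field_simp
  ring

/-- the neutral part: `X² (G' - G) N² ≤ 8 (N - φ) X² G' + 80 X² G` -/
theorem neutral (hC : 0 < C) (hN : 22 ≤ N) {X G G' : ℝ} (hG : 0 ≤ G)
    (hG' : G' = G * (1 + uC C N) ^ 4) :
    X ^ 2 * (G' - G) * N ^ 2 ≤ 8 * (N - phiC C N) * X ^ 2 * G' + 80 * (X ^ 2 * G) := by
  have h0 : 0 < N := by linarith
  have h2 : 0 < N - 2 := by linarith
  have hu0 := uC_nonneg (C := C) (N := N) hC (by linarith)
  have hu1 := uC_le hC hN
  have h4 := uC_mul (C := C) (N := N) hC (by linarith)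
  have hphi : 0 ≤ N - phiC C N := by linarith [phiC_le hC h0]
  have hphi2 : N - phiC C N ≤ N := by linarith [phiC_nonneg hC h0]
  have hX := sq_nonneg X
  have hXG : 0 ≤ X ^ 2 * G := mul_nonneg hX hG
  have hGG : G ≤ G' := by
    rw [hG']
    have : 1 ≤ (1 + uC C N) ^ 4 := one_le_pow₀ (by linarith)
    nlinarith
  have e1 : (1 + uC C N) ^ 4 - 1 ≤ 4 * uC C N + 11 * uC C N ^ 2 := by
    nlinarith [mul_nonneg hu0 hu0, mul_nonneg (mul_nonneg hu0 hu0) hu0,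
      mul_nonneg (mul_nonneg hu0 hu0) (sub_nonneg.2 hu1),
      mul_nonneg (mul_nonneg (mul_nonneg hu0 hu0) hu0) (sub_nonneg.2 hu1)]
  have e2 : uC C N * N ≤ 11 / 5 := by
    unfold uC
    rw [div_mul_eq_mul_div, div_le_div_iff₀ (by positivity) (by norm_num)]
    nlinarith [mul_pos hC h2, mul_pos h0 h2, mul_pos hC h0,
      mul_nonneg hC.le (sub_nonneg.2 hN), mul_nonneg h2.le (sub_nonneg.2 hN)]
  have e3 : 11 * uC C N ^ 2 * N ^ 2 ≤ 54 := by
    have : (uC C N * N) ^ 2 ≤ (11 / 5) ^ 2 := pow_le_pow_left₀ (by positivity) e2 2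
    nlinarith
  have e4 : 8 * (N - phiC C N) * (2 / (N - 2)) ≤ 18 := by
    have : 8 * (N - phiC C N) * (2 / (N - 2)) ≤ 8 * N * (2 / (N - 2)) := by gcongr
    refine this.trans ?_
    rw [mul_div_assoc', div_le_iff₀ h2]
    linarith
  calc X ^ 2 * (G' - G) * N ^ 2 = X ^ 2 * G * (((1 + uC C N) ^ 4 - 1) * N ^ 2) := by
        rw [hG']; ring
    _ ≤ X ^ 2 * G * ((4 * uC C N + 11 * uC C N ^ 2) * N ^ 2) := by gcongr
    _ = X ^ 2 * G * (4 * uC C N * N ^ 2 + 11 * uC C N ^ 2 * N ^ 2) := by ring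
    _ = X ^ 2 * G * (8 * (N - phiC C N) + (8 * (N - phiC C N) * (2 / (N - 2))
          + 11 * uC C N ^ 2 * N ^ 2)) := by rw [h4]; ring
    _ ≤ X ^ 2 * G * (8 * (N - phiC C N) + (18 + 54)) := by gcongr
    _ ≤ 8 * (N - phiC C N) * X ^ 2 * G + 80 * (X ^ 2 * G) := by nlinarith
    _ ≤ _ := by
        have : 8 * (N - phiC C N) * X ^ 2 * G ≤ 8 * (N - phiC C N) * X ^ 2 * G' :=
          mul_le_mul_of_nonneg_left hGG (by positivity)
        linarith

/-- one-sided squares: the increment of `G (x_+)²` -/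
theorem pos_sq_step {α : Type*} (A : Finset α) (z : α → ℝ) {x X G G' M Q : ℝ}
    (hX : X = max x 0) (hG' : 0 ≤ G') (hM : X * ∑ p ∈ A, z p ≤ M)
    (hQ : ∑ p ∈ A, z p ^ 2 ≤ Q) :
    ∑ p ∈ A, (max (x + z p) 0 ^ 2 * G' - max x 0 ^ 2 * G)
      ≤ G' * (2 * M + Q) + X ^ 2 * (G' - G) * (A.card : ℝ) := by
  have h1 : ∀ p ∈ A, max (x + z p) 0 ^ 2 * G' - max x 0 ^ 2 * G
      ≤ G' * (2 * (X * z p) + z p ^ 2) + X ^ 2 * (G' - G) := by
    intro p _
    have := posPart_sq_add_le x (z p)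
    have := mul_le_mul_of_nonneg_right this hG'
    rw [← hX] at this ⊢
    linarith
  refine (Finset.sum_le_sum h1).trans ?_
  rw [Finset.sum_add_distrib, Finset.sum_const, nsmul_eq_mul, ← Finset.mul_sum,
    Finset.sum_add_distrib, ← Finset.mul_sum, ← Finset.mul_sum]
  have h2 := mul_le_mul_of_nonneg_left (add_le_add (mul_le_mul_of_nonneg_left hM
    (by norm_num : (0 : ℝ) ≤ 2)) hQ) hG'
  linarith

variable {ι : Type*} [Fintype ι] [DecidableEq ι]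
variable {F : Finset ι} {A : Finset (ι × ι)} {Z : Matrix ι ι ℝ}
  {b t s v w e eps : ℝ}

/-- the error of the mean of the increment of `T₂` (uniform weights) -/
noncomputable def eT2 (b t s v w e : ℝ) : ℝ :=
  4 * e * (b ^ 3 + s * (2 * b * w + 2 * s) + v ^ 2) +
    18 * ((t + s ^ 2) * (b ^ 3 + 2 * (s * (2 * b * w + 2 * s)) + v ^ 2)) +
    30 * (b ^ 4 + 2 * (s * v) ^ 2)

/-- the bound of the second moment of the increment of `T₂` -/
noncomputable def qT2 (b s v w : ℝ) : ℝ :=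
  343 * b ^ 6 + 350 * (s * (2 * b * w + 2 * s)) ^ 2 + 175 * v ^ 4 + 2800 * w ^ 4 +
    5600 * (s ^ 4 * v ^ 4)

/-- uniform mean of the increment of `T₂` -/
theorem T2_mean_unif (c : Ctl F Z b t s v w) (hA : A ⊆ F ×ˢ F)
    (hadm : ∀ p ∈ A, p.1 ≠ p.2 ∧ PairOK Z p.1 p.2) (he : 0 ≤ e)
    (hE : (((F ×ˢ F) \ A).card : ℝ) ≤ e ^ 2) :
    |∑ p ∈ A, ((upd Z p.1 p.2 ^ 2).trace - (Z ^ 2).trace + 2) -
      (4 * (Z.trace * ((Z ^ 3).trace - Z.trace)) + 2 * ((Z ^ 2).trace - F.card) ^ 2)|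
      ≤ eT2 b t s v w e := by
  have m1 := T2_mean' (h := fun _ _ => 0) c hA hadm (fun p _ => by norm_num) he le_rfl hE
    (by simp)
  simp only [sub_zero, one_mul, zero_mul, Finset.sum_const_zero, mul_zero, add_zero] at m1
  exact m1

/-- collecting the terms (real numbers only) -/
theorem AF_collect (hN : 22 ≤ N) (hC : 0 < C) {r X R Q cA : ℝ} (hr : 0 < r) (hX0 : 0 ≤ X)
    (hX : X * r ≤ gC C N) (hR0 : 0 ≤ R) (hQ0 : 0 ≤ Q) (hAle : cA ≤ N ^ 2) :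
    (r / gC C (N - 2)) ^ 2 * (2 * (-(4 * (N - phiC C N) * X ^ 2) + 2 * X ^ 3 + 4 * X ^ 2
        + X * R) + 2 * Q) + X ^ 2 * ((r / gC C (N - 2)) ^ 2 - (r / gC C N) ^ 2) * cA
      ≤ 4 * (r / gC C N) * R + 8 * (gC C N / r) + 100 + 4 * (r / gC C N) ^ 2 * Q := by
  have hN0 : 0 < N := by linarith
  have hN2 : 2 < N := by linarith
  have hg := gC_pos hC hN0
  set G := (r / gC C N) ^ 2 with hG
  set G' := (r / gC C (N - 2)) ^ 2 with hG'def
  have hG0 : 0 ≤ G := sq_nonneg _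
  have hG'0 : 0 ≤ G' := sq_nonneg _
  have hG' : G' = G * (1 + uC C N) ^ 4 := gC_step hC hN2 r
  have hu0 := uC_nonneg (C := C) (N := N) hC hN2
  have hu1 := uC_le hC hN
  have hGG2 : G' ≤ 2 * G := by
    rw [hG']
    have : (1 + uC C N) ^ 4 ≤ (1 + 1 / 10) ^ 4 := pow_le_pow_left₀ (by linarith) (by linarith) 4
    have h2 : ((1 : ℝ) + 1 / 10) ^ 4 ≤ 2 := by norm_num
    nlinarith
  have hGG1 : G ≤ G' := by
    rw [hG']
    have : 1 ≤ (1 + uC C N) ^ 4 := one_le_pow₀ (by linarith)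
    nlinarith
  have hXr : X ≤ gC C N / r := by rw [le_div_iff₀ hr]; exact hX
  have hrg : 0 ≤ r / gC C N := by positivity
  have hgr : 0 ≤ gC C N / r := by positivity
  have hXG : X * G ≤ r / gC C N := by
    calc X * G ≤ gC C N / r * G := mul_le_mul_of_nonneg_right hXr hG0
      _ = r / gC C N := by rw [hG]; field_simp
  have hX2G : X ^ 2 * G ≤ 1 := by
    have : X ^ 2 * G = (X * (r / gC C N)) ^ 2 := by rw [hG]; ring
    rw [this]
    refine pow_le_one₀ (by positivity) ?_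
    rw [mul_div_assoc', div_le_one hg]
    exact hX
  have hneu := neutral hC hN (X := X) hG0 hG'
  have hcX : X ^ 2 * (G' - G) * cA ≤ X ^ 2 * (G' - G) * N ^ 2 :=
    mul_le_mul_of_nonneg_left hAle (mul_nonneg (sq_nonneg X) (by linarith))
  have i1 : G' * (X * R) ≤ 2 * (r / gC C N) * R := by
    have h1 : X * G' ≤ X * (2 * G) := mul_le_mul_of_nonneg_left hGG2 hX0
    have h2 : X * G' ≤ 2 * (r / gC C N) := by linarith
    have h3 := mul_le_mul_of_nonneg_right h2 hR0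
    linarith
  have i3 : G' * X ^ 2 ≤ 2 := by
    have h1 := mul_le_mul_of_nonneg_right hGG2 (sq_nonneg X)
    linarith
  have i2 : G' * (X ^ 3) ≤ 2 * (gC C N / r) := by
    have e1 : G' * (X ^ 3) = X * (G' * X ^ 2) := by ring
    rw [e1]
    have h0 : 0 ≤ G' * X ^ 2 := mul_nonneg hG'0 (sq_nonneg X)
    have h1 : X * (G' * X ^ 2) ≤ gC C N / r * 2 := mul_le_mul hXr i3 h0 hgr
    linarith
  have i4 : G' * (2 * Q) ≤ 4 * G * Q := by
    have h1 := mul_le_mul_of_nonneg_right hGG2 (by linarith : 0 ≤ 2 * Q)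
    linarith
  have e5 : G' * (2 * (-(4 * (N - phiC C N) * X ^ 2) + 2 * X ^ 3 + 4 * X ^ 2 + X * R) + 2 * Q)
      = -(8 * (N - phiC C N) * X ^ 2 * G') + 4 * (G' * X ^ 3) + 8 * (G' * X ^ 2)
        + 2 * (G' * (X * R)) + G' * (2 * Q) := by ring
  rw [e5]
  linarith

/-- the mean of the step of `x` -/
theorem AF_mean (c : Ctl F Z b t s v w) (hA : A ⊆ F ×ˢ F)
    (hadm : ∀ p ∈ A, p.1 ≠ p.2 ∧ PairOK Z p.1 p.2) (he : 0 ≤ e)
    (hE : (((F ×ˢ F) \ A).card : ℝ) ≤ e ^ 2) (heps : eps = 1 ∨ eps = -1)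
    (hFN : (F.card : ℝ) = N) (hN : 22 ≤ N) (hC : 0 < C) {τ x : ℝ}
    (hT1 : eps * Z.trace ≤ 0) (hτ : |eps * Z.trace| ≤ τ)
    (hT3 : -((Z ^ 2).trace + 1) ≤ eps * (Z ^ 3).trace)
    (hx : (Z ^ 2).trace = x + 1 + phiC C N) :
    ∑ p ∈ A, (((upd Z p.1 p.2 ^ 2).trace - (Z ^ 2).trace + 2)
        - (2 - (phiC C N - phiC C (N - 2))))
      ≤ 2 * (x + 1) ^ 2 - 4 * (N - phiC C N) * (x + 1) + 4 * (τ * (t ^ 2 + 1))
        + eT2 b t s v w e + 2 * e ^ 2 := by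
  have hN0 : 0 < N := by linarith
  have hN2 : 2 < N := by linarith
  set dphi := phiC C N - phiC C (N - 2) with hdphi
  have m1 := T2_mean_unif c hA hadm he hE
  rw [hFN] at m1
  have m1' := (abs_le.1 m1).2
  have hcard : ((F ×ˢ F).card : ℝ) = (((F ×ˢ F) \ A).card : ℝ) + (A.card : ℝ) := by
    rw [← Nat.cast_add, Finset.card_sdiff_add_card_eq_card hA]
  rw [Finset.card_product] at hcard
  push_cast at hcard
  rw [hFN] at hcard
  have hAge : N ^ 2 - e ^ 2 ≤ (A.card : ℝ) := by nlinarith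
  have hd2 := phiC_step_le_two hC hN2
  have hd0 := phiC_step_nonneg hC hN2
  have hdN := phiC_step hC hN2
  rw [← hdphi] at hd2 hd0 hdN
  have hT2t := c.T2
  have hτ0 : 0 ≤ τ := (abs_nonneg _).trans hτ
  have hT2nn : 0 ≤ (Z ^ 2).trace := by
    rw [← Mat.frob_eq_trace_sq c.symm]; exact Mat.frob_nonneg _
  -- `4 T₁ T₃ ≤ 4 τ (t² + 1)`
  have hT13 : Z.trace * (Z ^ 3).trace ≤ τ * (t ^ 2 + 1) := by
    rw [eps_cube heps]
    have h1 : 0 ≤ -(eps * Z.trace) := by linarith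
    have h2 : -(eps * Z.trace) ≤ τ := by rw [abs_of_nonpos hT1] at hτ; exact hτ
    have h3 : -(eps * (Z ^ 3).trace) ≤ (Z ^ 2).trace + 1 := by linarith
    have h4 : 0 ≤ (Z ^ 2).trace + 1 := by linarith
    calc (eps * Z.trace) * (eps * (Z ^ 3).trace)
        = -(eps * Z.trace) * (-(eps * (Z ^ 3).trace)) := by ring
      _ ≤ -(eps * Z.trace) * ((Z ^ 2).trace + 1) := mul_le_mul_of_nonneg_left h3 h1
      _ ≤ τ * ((Z ^ 2).trace + 1) := mul_le_mul_of_nonneg_right h2 h4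
      _ ≤ τ * (t ^ 2 + 1) := mul_le_mul_of_nonneg_left (by linarith) hτ0
  rw [Finset.sum_sub_distrib, Finset.sum_const, nsmul_eq_mul]
  have h1 : -((A.card : ℝ) * (2 - dphi)) ≤ -((N ^ 2 - e ^ 2) * (2 - dphi)) := by
    have := mul_le_mul_of_nonneg_right hAge (by linarith : 0 ≤ 2 - dphi)
    linarith
  have h2 : e ^ 2 * (2 - dphi) ≤ 2 * e ^ 2 := by nlinarith [sq_nonneg e]
  have h5 := sq_nonneg Z.trace
  set S := ∑ p ∈ A, ((upd Z p.1 p.2 ^ 2).trace - (Z ^ 2).trace + 2) with hS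
  have e1 : 4 * (Z.trace * ((Z ^ 3).trace - Z.trace))
      = 4 * (Z.trace * (Z ^ 3).trace) - 4 * Z.trace ^ 2 := by ring
  rw [e1] at m1'
  have e2 : 2 * ((Z ^ 2).trace - N) ^ 2 = 2 * (x + 1) ^ 2 + 2 * (phiC C N) ^ 2 + 2 * N ^ 2
      + 4 * (x + 1) * phiC C N - 4 * N * phiC C N - 4 * N * (x + 1) := by rw [hx]; ring
  rw [e2] at m1'
  have e3 : (N ^ 2 - e ^ 2) * (2 - dphi) = 2 * N ^ 2 - dphi * N ^ 2 - e ^ 2 * (2 - dphi) := by
    ring
  rw [e3] at h1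
  have e4 : 2 * (x + 1) ^ 2 - 4 * (N - phiC C N) * (x + 1)
      = 2 * (x + 1) ^ 2 + 4 * (x + 1) * phiC C N - 4 * N * (x + 1) := by ring
  rw [e4]
  have e5 : 4 * N * phiC C N = 4 * phiC C N * N := by ring
  linarith

/-- the second moment of the step of `x` -/
theorem AF_second (c : Ctl F Z b t s v w) (hA : A ⊆ F ×ˢ F)
    (hadm : ∀ p ∈ A, p.1 ≠ p.2 ∧ PairOK Z p.1 p.2) (hFN : (F.card : ℝ) = N) {y : ℝ}
    (hy0 : 0 ≤ y) (hy2 : y ≤ 2) :
    ∑ p ∈ A, (((upd Z p.1 p.2 ^ 2).trace - (Z ^ 2).trace + 2) - y) ^ 2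
      ≤ 2 * (qT2 b s v w + 4 * N ^ 2) := by
  have q1 := T2_sq' c hA hadm
  have hcard := Finset.card_le_card hA
  rw [Finset.card_product] at hcard
  have hAle : (A.card : ℝ) ≤ N ^ 2 := by
    have : (A.card : ℝ) ≤ ((F.card * F.card : ℕ) : ℝ) := by exact_mod_cast hcard
    push_cast at this
    rw [hFN] at this
    linarith [sq N]
  have h1 : ∀ p ∈ A, (((upd Z p.1 p.2 ^ 2).trace - (Z ^ 2).trace + 2) - y) ^ 2
      ≤ 2 * ((upd Z p.1 p.2 ^ 2).trace - (Z ^ 2).trace + 2) ^ 2 + 8 := by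
    intro p _
    have : y ^ 2 ≤ 4 := by nlinarith
    nlinarith [sq_nonneg (((upd Z p.1 p.2 ^ 2).trace - (Z ^ 2).trace + 2) + y)]
  refine (Finset.sum_le_sum h1).trans ?_
  rw [Finset.sum_add_distrib, ← Finset.mul_sum, Finset.sum_const, nsmul_eq_mul]
  unfold qT2
  linarith

/-- **AF**, abstract form -/
theorem AF_abs (c : Ctl F Z b t s v w) (hA : A ⊆ F ×ˢ F)
    (hadm : ∀ p ∈ A, p.1 ≠ p.2 ∧ PairOK Z p.1 p.2) (he : 0 ≤ e)
    (hE : (((F ×ˢ F) \ A).card : ℝ) ≤ e ^ 2) (heps : eps = 1 ∨ eps = -1)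
    (hFN : (F.card : ℝ) = N) (hN : 22 ≤ N) (hC : 0 < C) {r τ : ℝ} (hr : 0 < r)
    (hT1 : eps * Z.trace ≤ 0) (hτ : |eps * Z.trace| ≤ τ)
    (hT3 : -((Z ^ 2).trace + 1) ≤ eps * (Z ^ 3).trace)
    (hX : max ((Z ^ 2).trace - 1 - phiC C N) 0 * r ≤ gC C N) :
    ∑ p ∈ A, (max ((upd Z p.1 p.2 ^ 2).trace - 1 - phiC C (N - 2)) 0 ^ 2
          * (r / gC C (N - 2)) ^ 2
        - max ((Z ^ 2).trace - 1 - phiC C N) 0 ^ 2 * (r / gC C N) ^ 2)
      ≤ 4 * (r / gC C N) * (eT2 b t s v w e + 2 * e ^ 2 + 2 + 4 * (τ * (t ^ 2 + 1)))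
        + 8 * (gC C N / r) + 100 + 4 * (r / gC C N) ^ 2 * (qT2 b s v w + 4 * N ^ 2) := by
  have hN0 : 0 < N := by linarith
  have hN2 : 2 < N := by linarith
  obtain ⟨x, hx⟩ : ∃ x, x = (Z ^ 2).trace - 1 - phiC C N := ⟨_, rfl⟩
  obtain ⟨X, hXdef⟩ : ∃ X, X = max x 0 := ⟨_, rfl⟩
  obtain ⟨y, hy⟩ : ∃ y, y = 2 - (phiC C N - phiC C (N - 2)) := ⟨_, rfl⟩
  have hX0 : 0 ≤ X := by rw [hXdef]; exact le_max_right _ _
  have hXx : X * x = X ^ 2 := by
    rcases le_total x 0 with h0 | h0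
    · rw [hXdef, max_eq_right h0]; ring
    · rw [hXdef, max_eq_left h0]; ring
  rw [← hx, ← hXdef] at hX
  have hτ0 : 0 ≤ τ := (abs_nonneg _).trans hτ
  have hm := AF_mean (x := x) c hA hadm he hE heps hFN hN hC hT1 hτ hT3 (by rw [hx]; ring)
  rw [← hy] at hm
  have hd2 := phiC_step_le_two hC hN2
  have hd0 := phiC_step_nonneg hC hN2
  have hq := AF_second (y := y) c hA hadm hFN (by linarith) (by linarith)
  have he0 : 0 ≤ eT2 b t s v w e := (abs_nonneg _).trans (T2_mean_unif c hA hadm he hE)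
  obtain ⟨R, hR⟩ : ∃ R, R = eT2 b t s v w e + 2 * e ^ 2 + 2 + 4 * (τ * (t ^ 2 + 1)) := ⟨_, rfl⟩
  have hR0 : 0 ≤ R := by rw [hR]; positivity
  have hQ0 : 0 ≤ qT2 b s v w + 4 * N ^ 2 := by unfold qT2; positivity
  have hMz : X * ∑ p ∈ A, (((upd Z p.1 p.2 ^ 2).trace - (Z ^ 2).trace + 2) - y)
      ≤ -(4 * (N - phiC C N) * X ^ 2) + 2 * X ^ 3 + 4 * X ^ 2 + X * R := by
    have h1 := mul_le_mul_of_nonneg_left hm hX0
    have e1 : X * (2 * (x + 1) ^ 2 - 4 * (N - phiC C N) * (x + 1) + 4 * (τ * (t ^ 2 + 1))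
        + eT2 b t s v w e + 2 * e ^ 2)
        = 2 * (X * x) * x + 4 * (X * x) - 4 * (N - phiC C N) * (X * x)
          - 4 * (N - phiC C N) * X + X * R := by rw [hR]; ring
    rw [e1, hXx] at h1
    have h2 : X ^ 2 * x = X ^ 3 := by
      have : X ^ 2 * x = X * (X * x) := by ring
      rw [this, hXx]; ring
    have h3 : 0 ≤ 4 * (N - phiC C N) * X :=
      mul_nonneg (by linarith [phiC_le hC hN0]) hX0
    have e2 : 2 * X ^ 2 * x = 2 * X ^ 3 := by rw [mul_assoc, h2]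
    linarith
  have hz : ∀ p : ι × ι, (upd Z p.1 p.2 ^ 2).trace - 1 - phiC C (N - 2)
      = x + (((upd Z p.1 p.2 ^ 2).trace - (Z ^ 2).trace + 2) - y) := by
    intro p; rw [hx, hy]; ring
  simp only [hz]
  rw [← hx]
  have fin := pos_sq_step A
    (fun p : ι × ι => ((upd Z p.1 p.2 ^ 2).trace - (Z ^ 2).trace + 2) - y)
    (x := x) (X := X) (G := (r / gC C N) ^ 2) (G' := (r / gC C (N - 2)) ^ 2) hXdef
    (sq_nonneg _) hMz hq
  have hcard := Finset.card_le_card hA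
  rw [Finset.card_product] at hcard
  have hAle : (A.card : ℝ) ≤ N ^ 2 := by
    have : (A.card : ℝ) ≤ ((F.card * F.card : ℕ) : ℝ) := by exact_mod_cast hcard
    push_cast at this
    rw [hFN] at this
    linarith [sq N]
  have col := AF_collect hN hC hr hX0 hX hR0 hQ0 hAle
  rw [← hR]
  exact fin.trans col

end Vale.Agent.P049.TS.Rate
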