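import Vale.Agent.P049.TS.Rate3.RB6
import Vale.Agent.P049.TS.Drift.T12d

/-!
Rate lemma `g2B` (`T₁²` in the phase IIIb).
-/

set_option linter.unusedSectionVars false
set_option exponentiation.threshold 3000

namespace Vale.Agent.P049.TS.R402

open Matrix Finset

variable {ι : Type*} [Fintype ι] [DecidableEq ι]

section Abs

variable {F : Finset ι} {Z : Matrix ι ι ℝ} {A : Finset (ι × ι)} {b t s v w e N τ c0 : ℝ}

/-- the right-hand side -/
noncomputable def errB2 (b t s v e τ : ℝ) : ℝ :=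
  4 * (τ ^ 2 * t ^ 2) +
    2 * (τ * (2 * e * (b ^ 2 + s * v) + 6 * ((t + s ^ 2) * (b ^ 2 + 2 * (s * v))))) +
    (27 * b ^ 4 + 24 * (s * v) ^ 2)

theorem B2_abs (c : D12.Ctl F Z b t s v w) (hA : A ⊆ F ×ˢ F)
    (hadm : ∀ p ∈ A, p.1 ≠ p.2 ∧ PairOK Z p.1 p.2) (he : 0 ≤ e)
    (hE : (((F ×ˢ F) \ A).card : ℝ) ≤ e ^ 2) (hN : (F.card : ℝ) = N)
    (hN4 : 4 ≤ N) (hτ : |Z.trace| ≤ τ) (hc : 0 ≤ c0) :
    ∑ p ∈ A, ((upd Z p.1 p.2).trace ^ 2 * c0 / (N - 2) ^ 2 - Z.trace ^ 2 * c0 / N ^ 2) ≤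
      4 * c0 / N ^ 2 * errB2 b t s v e τ := by
  have m1 := D12.T1_mean' (h := fun _ _ => 0) (H := 0) c hA hadm (fun p _ => by norm_num) he
    le_rfl hE (by simp)
  simp only [sub_zero, one_mul, zero_mul, Finset.sum_const_zero, mul_zero, add_zero] at m1
  rw [hN] at m1
  have m2 := D12.T1_sq' c hA hadm
  have hτ0 : 0 ≤ τ := (abs_nonneg _).trans hτ
  have hNp : 0 < N := by linarith
  have hN2 : 0 < N - 2 := by linarith
  have b0 := c.b0
  have t0 := c.t0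
  have s0 := c.s0
  have v0 := c.v0
  set E1 := 2 * e * (b ^ 2 + s * v) + 6 * ((t + s ^ 2) * (b ^ 2 + 2 * (s * v))) with hE1
  have hE10 : 0 ≤ E1 := by rw [hE1]; positivity
  set S1 := ∑ p ∈ A, ((upd Z p.1 p.2).trace - Z.trace) with hS1
  set R := errB2 b t s v e τ with hR
  have hR0 : 0 ≤ R := by
    rw [hR]
    unfold errB2
    positivity
  have hcard : (A.card : ℝ) ≤ N ^ 2 := by
    have h := Finset.card_le_card hA
    rw [Finset.card_product] at h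
    rw [← hN]
    calc (A.card : ℝ) ≤ ((F.card * F.card : ℕ) : ℝ) := by exact_mod_cast h
      _ = _ := by push_cast; ring
  have e1 : ∑ p ∈ A, ((upd Z p.1 p.2).trace ^ 2 * c0 / (N - 2) ^ 2 - Z.trace ^ 2 * c0 / N ^ 2) =
      c0 / (N - 2) ^ 2 * (2 * Z.trace * S1 + ∑ p ∈ A, ((upd Z p.1 p.2).trace - Z.trace) ^ 2 +
        Z.trace ^ 2 * ((4 * N - 4) / N ^ 2) * A.card) := by
    have e2 : ∀ p : ι × ι, (upd Z p.1 p.2).trace ^ 2 * c0 / (N - 2) ^ 2 -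
        Z.trace ^ 2 * c0 / N ^ 2 =
        c0 / (N - 2) ^ 2 * (2 * Z.trace * ((upd Z p.1 p.2).trace - Z.trace)) +
        c0 / (N - 2) ^ 2 * ((upd Z p.1 p.2).trace - Z.trace) ^ 2 +
        c0 / (N - 2) ^ 2 * (Z.trace ^ 2 * ((4 * N - 4) / N ^ 2)) := by
      intro p
      field_simp
      ring
    rw [Finset.sum_congr rfl fun p _ => e2 p, Finset.sum_add_distrib, Finset.sum_add_distrib,
      Finset.sum_const, nsmul_eq_mul, ← Finset.mul_sum, ← Finset.mul_sum, ← Finset.mul_sum]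
    ring
  rw [e1]
  have h4 : Z.trace ^ 2 * ((4 * N - 4) / N ^ 2) * A.card ≤ 4 * N * Z.trace ^ 2 := by
    have h5 : (4 * N - 4) / N ^ 2 * A.card ≤ 4 * N := by
      calc (4 * N - 4) / N ^ 2 * A.card ≤ (4 * N - 4) / N ^ 2 * N ^ 2 := by
            apply mul_le_mul_of_nonneg_left hcard
            apply div_nonneg _ (by positivity)
            linarith
        _ = 4 * N - 4 := by field_simp
        _ ≤ 4 * N := by linarith
    rw [mul_assoc]
    calc Z.trace ^ 2 * ((4 * N - 4) / N ^ 2 * A.card) ≤ Z.trace ^ 2 * (4 * N) :=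
          mul_le_mul_of_nonneg_left h5 (sq_nonneg _)
      _ = _ := by ring
  have h5 : 2 * Z.trace * S1 ≤ 4 * Z.trace ^ 2 * ((Z ^ 2).trace - N) + 2 * (τ * E1) := by
    have e3 : 2 * Z.trace * S1 = 4 * Z.trace ^ 2 * ((Z ^ 2).trace - N) +
        2 * (Z.trace * (S1 - 2 * (Z.trace * ((Z ^ 2).trace - N)))) := by ring
    rw [e3]
    have : Z.trace * (S1 - 2 * (Z.trace * ((Z ^ 2).trace - N))) ≤ τ * E1 := by
      refine (le_abs_self _).trans ?_
      rw [abs_mul]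
      exact mul_le_mul hτ m1 (abs_nonneg _) hτ0
    linarith
  have h6 : 4 * Z.trace ^ 2 * (Z ^ 2).trace ≤ 4 * (τ ^ 2 * t ^ 2) := by
    have h7 : Z.trace ^ 2 ≤ τ ^ 2 := by
      rw [← sq_abs]
      exact pow_le_pow_left₀ (abs_nonneg _) hτ 2
    have h8 : 0 ≤ (Z ^ 2).trace := Mat.trace_pow_even_nonneg c.symm 1
    have h9 : Z.trace ^ 2 * (Z ^ 2).trace ≤ τ ^ 2 * t ^ 2 :=
      mul_le_mul h7 c.T2 h8 (sq_nonneg _)
    linarith
  have h7 : 2 * Z.trace * S1 + ∑ p ∈ A, ((upd Z p.1 p.2).trace - Z.trace) ^ 2 +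
        Z.trace ^ 2 * ((4 * N - 4) / N ^ 2) * A.card ≤ R := by
    rw [hR]
    unfold errB2
    rw [← hE1]
    have e5 : 4 * Z.trace ^ 2 * ((Z ^ 2).trace - N) =
        4 * Z.trace ^ 2 * (Z ^ 2).trace - 4 * N * Z.trace ^ 2 := by ring
    linarith
  have h8 : c0 / (N - 2) ^ 2 ≤ 4 * c0 / N ^ 2 := by
    rw [div_le_div_iff₀ (by positivity) (by positivity)]
    have : N ^ 2 ≤ 4 * (N - 2) ^ 2 := by nlinarith
    calc c0 * N ^ 2 ≤ c0 * (4 * (N - 2) ^ 2) := mul_le_mul_of_nonneg_left this hc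
      _ = _ := by ring
  calc _ ≤ c0 / (N - 2) ^ 2 * R := mul_le_mul_of_nonneg_left h7 (by positivity)
    _ ≤ _ := mul_le_mul_of_nonneg_right h8 hR0

end Abs

section Num

open Vale.Agent.P049.TS.Asm

def B2E (b t s v e τ i c0 : Ex) : Ex :=
  4 * c0 * i ^ 2 * (4 * (τ ^ 2 * t ^ 2) +
    2 * (τ * (2 * e * (b ^ 2 + s * v) + 6 * ((t + s ^ 2) * (b ^ 2 + 2 * (s * v))))) +
    (27 * b ^ 4 + 24 * (s * v) ^ 2))

/-- the environment -/
def envB2 {α : Type*} (y b t s v e τ i c0 : α) : ℕ → α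
  | 0 => b | 1 => t | 2 => s | 3 => v | 4 => e | 5 => τ | 6 => i | 7 => c0 | _ => y

abbrev xB2 : Ex := B2E (.v 0) (.v 1) (.v 2) (.v 3) (.v 4) (.v 5) (.v 6) (.v 7)

theorem B2_ev (b t s v e τ N c0 : ℝ) :
    4 * c0 / N ^ 2 * errB2 b t s v e τ = xB2.ev (envB2 0 b t s v e τ N⁻¹ c0) := by
  rw [div_eq_mul_inv, ← inv_pow]
  simp only [xB2, B2E, Ex.ev_add, Ex.ev_mul, Ex.ev_pow, Ex.ev_ofNat, Ex.ev_v, envB2, errB2]
  push_cast
  ring

/-- exponents (times 4) at `N = σ^530` -/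
def zlo2 : ℕ → ℤ := envB2 0 727 752 (-88) 1060 1060 940 (-2120) 2360
/-- exponents (times 4) at `N = σ^680` -/
def zhi2 : ℕ → ℤ := envB2 0 1327 1352 212 1384 1360 1540 (-2720) 2360

theorem xB2_lo : xB2.y zlo2 ≤ 2116 := by decide
theorem xB2_hi : xB2.y zhi2 ≤ 2716 := by decide

end Num

open Vale.Agent.P049.TS.Asm in
/-- **rate of `g2B`** -/
theorem rate_B2 (d : ℕ) (_hd : 3 ≤ d) : ∃ C : ℝ, ∃ s0 : ℕ, ∀ (ι : Type*) [Fintype ι]
    [DecidableEq ι] (n k : ℕ) (F : Finset ι) (Zp Zm : Matrix ι ι ℝ) (forb : ι → ι → Prop),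
    s0 ≤ sR n → EnvB n d k F Zp Zm forb → ∀ (ε : ℝ) (Z : Matrix ι ι ℝ), Sgn Zp Zm ε Z →
    ∑ p ∈ adm F forb Zp Zm, (g2B n d (k + 1) (upd Z p.1 p.2) - g2B n d k Z) ≤
      C * rT n d k := by
  refine ⟨xB2.cs (fun _ => (d : ℝ) + 25), 2000, ?_⟩
  intro ι _ _ n k F Zp Zm forb hσ E ε Z hs
  obtain ⟨Z', hP⟩ := hs.isPair
  have o := E.oneB hs
  have c := o.ctl
  have hN := NkB_pos E.k_lt
  have R := rgB hσ E.k_ge E.k_lt
  have h1 : 1 ≤ sR n := by omega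
  have hmain := B2_abs (c0 := (sR n : ℝ) ^ 590) c (adm_subset F forb Zp Zm)
    (Rate.adm_pairOK hP) (eB_nonneg n d k) (E.card_compl_le hσ) E.card
    (four_le_NkB hσ E.k_lt) (τ := tauB n d k) (by rw [tauB_eq h1 hN]; exact o.T1_abs)
    (by positivity)
  have e4 : ∀ p : ι × ι, g2B n d (k + 1) (upd Z p.1 p.2) - g2B n d k Z =
      (upd Z p.1 p.2).trace ^ 2 * (sR n : ℝ) ^ 590 / (Nk n d k - 2) ^ 2 -
        Z.trace ^ 2 * (sR n : ℝ) ^ 590 / Nk n d k ^ 2 := fun p => by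
    unfold g2B; rw [Nk_succ]
  rw [Finset.sum_congr rfl fun p _ => e4 p]
  refine hmain.trans ?_
  rw [B2_ev, rT_III]
  have hd0 : (0 : ℝ) ≤ d := Nat.cast_nonneg d
  have hK : (1 : ℝ) ≤ (d : ℝ) + 25 := by linarith
  have key : ∀ {c x : ℝ} {y1 y2 : ℤ}, 0 ≤ c → c ≤ (d : ℝ) + 25 →
      x ≤ c * Asm.Em (LL n) (XX n d k) 530 680 y1 y2 →
      x ≤ ((d : ℝ) + 25) * Asm.Em (LL n) (XX n d k) 530 680 y1 y2 := by
    intro c x y1 y2 _ hc hx
    exact hx.trans (mul_le_mul_of_nonneg_right hc (Em_pos _ _ _ _ _ _).le)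
  have one : ∀ {x : ℝ} {y1 y2 : ℤ}, x = Asm.Em (LL n) (XX n d k) 530 680 y1 y2 →
      x ≤ ((d : ℝ) + 25) * Asm.Em (LL n) (XX n d k) 530 680 y1 y2 := fun hx =>
    key (c := 1) zero_le_one hK (by rw [one_mul]; exact hx.le)
  have cτ : tauB n d k = Asm.Em (LL n) (XX n d k) 530 680 940 1540 :=
    mo_eq_Em (by norm_num) (by norm_num) (by norm_num)
  have hi : (Nk n d k)⁻¹ = Asm.Em (LL n) (XX n d k) 530 680 (-2120) (-2720) := by
    rw [Nk_III hN]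
    refine inv_eq_of_mul_eq_one_right ?_
    rw [Em_mul]
    norm_num
    exact Em_zero _ _ _ _
  have hc0 : (sR n : ℝ) ^ 590 = Asm.Em (LL n) (XX n d k) 530 680 2360 2360 := by
    have := sR_pow_Em (n := n) hσ (X := XX n d k) (xl := 530) (xh := 680) (by norm_num) 590
    rw [this]
    norm_num
  refine Ex.bound xB2 R zlo2 zhi2 xB2_lo xB2_hi ?_ (fun _ => by positivity) ?_
  · intro i
    rcases i with _ | _ | _ | _ | _ | _ | _ | _ | i
    · exact bB_nonneg _ _ _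
    · exact tB_nonneg _ _ _
    · exact sB_nonneg _ _ _
    · exact vB_nonneg _ _ _
    · exact eB_nonneg _ _ _
    · exact tauB_nonneg _ _ _
    · exact inv_nonneg.2 hN.le
    · show 0 ≤ (sR n : ℝ) ^ 590
      positivity
    · exact le_rfl
  · intro i
    rcases i with _ | _ | _ | _ | _ | _ | _ | _ | i
    · exact key (c := 2) (by norm_num) (by linarith) bB_III.le
    · exact key (c := 2) (by norm_num) (by linarith) tB_III.le
    · exact one sB_III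
    · exact key (c := 2) (by norm_num) (by linarith) vB_III.le
    · exact eB_III.le
    · exact one cτ
    · exact one hi
    · exact one hc0
    · show (0 : ℝ) ≤ _
      exact mul_nonneg (by linarith) (Em_pos _ _ _ _ _ _).le

end Vale.Agent.P049.TS.R402
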